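import Crest.Agent.N222.A.Basic
import Crest.Agent.N222.A.SmJ
import Crest.Agent.N222.F.Graph
import Crest.Agent.N222.F.Res
import Crest.Agent.N222.F.Bump
import Crest.Agent.N222.A.Fam0

-- ▼ part N222/A/Ph0a
section

/-! # Row 222, part A: the real inequalities of phase 0 (helper88) -/

set_option autoImplicit false
set_option linter.dupNamespace false
open Filter Set

noncomputable section

namespace Crest.Agent.N222.A.Ph0

/-- the terms with `χ` -/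
theorem chi_block {U W χ y a k0 c0 c N0 q P : ℝ} (hW : 1 ≤ W) (U0 : 0 < U) (χ0 : 0 ≤ χ)
    (χy : χ ≤ 2 * y) (hq : q ≤ U ^ 2 / 4) (hP : U ^ 2 / 4 ≤ P) (k0p : 0 < k0) (cp : 0 < c)
    (cc0 : c ≤ c0) (ha : |a| ≤ c0) (N0p : 0 < N0) (P2 : 32 * c0 ^ 2 * P ≤ k0)
    (P3 : 16 * c0 * P ≤ k0 * N0) :
    0 ≤ χ * y ^ 2 * (2 * W + 1) / U ^ 2 + 3 / 16 * k0 * χ - c / N0 * (q * χ) - |a| * χ ^ 2
      - 2 * a ^ 2 * (U ^ 2 / 4) * χ := by
  have c0p : 0 < c0 := cp.trans_le cc0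
  have U2 : 0 < U ^ 2 := by positivity
  have a2 : a ^ 2 ≤ c0 ^ 2 := sq_le_sq' (abs_le.1 ha).1 (abs_le.1 ha).2
  have h1 : c / N0 * (q * χ) ≤ k0 / 16 * χ := by
    rw [← mul_assoc]
    refine mul_le_mul_of_nonneg_right ?_ χ0
    rw [div_mul_eq_mul_div, div_le_iff₀ N0p]
    have : c * q ≤ c0 * P := by
      rcases le_total q 0 with h | h
      · nlinarith
      · exact mul_le_mul cc0 (hq.trans hP) h c0p.le
    linarith
  have h2 : 2 * a ^ 2 * (U ^ 2 / 4) * χ ≤ k0 / 16 * χ := by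
    refine mul_le_mul_of_nonneg_right ?_ χ0
    have : a ^ 2 * (U ^ 2 / 4) ≤ c0 ^ 2 * P := mul_le_mul a2 hP (by positivity) (by positivity)
    linarith
  have h3 : |a| * χ ^ 2 ≤ c0 * χ ^ 2 := mul_le_mul_of_nonneg_right ha (sq_nonneg _)
  have h4 : c0 * χ ^ 2 ≤ k0 / 16 * χ + 4 * c0 ^ 2 * χ ^ 3 / k0 := by
    have e : k0 / 16 * χ + 4 * c0 ^ 2 * χ ^ 3 / k0 - c0 * χ ^ 2 =
        χ * (k0 - 8 * c0 * χ) ^ 2 / (16 * k0) := by
      field_simp; ring
    have : 0 ≤ χ * (k0 - 8 * c0 * χ) ^ 2 / (16 * k0) := by positivity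
    linarith
  have h5 : 4 * c0 ^ 2 * χ ^ 3 / k0 ≤ χ * y ^ 2 * (2 * W + 1) / U ^ 2 := by
    rw [div_le_div_iff₀ k0p U2]
    have b1 : χ ^ 2 ≤ 4 * y ^ 2 := by nlinarith
    have b2 : c0 ^ 2 * U ^ 2 ≤ k0 / 8 := by nlinarith [sq_nonneg c0]
    have b3 : χ ^ 2 * (c0 ^ 2 * U ^ 2) ≤ 4 * y ^ 2 * (k0 / 8) :=
      mul_le_mul b1 b2 (by positivity) (by positivity)
    have b4 : 0 ≤ χ * y ^ 2 * k0 := by positivity
    have b5 := mul_le_mul_of_nonneg_left b3 χ0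
    nlinarith
  linarith

/-- the term with the gradient of `A` -/
theorem grad_block {U W t GA k0 : ℝ} (hW : 1 ≤ W) (hWt : W ^ 2 = 1 + t) (k0p : 0 < k0)
    (hGA : GA ^ 2 ≤ t * (k0 ^ 3 / 256)) :
    -(k0 / 16 * (1 - 1 / W ^ 2) + k0 ^ 2 * (U ^ 2 / 4) / 16) ≤ U * GA / W ^ 2 := by
  have W2 : 1 ≤ W ^ 2 := by nlinarith
  have W0 : 0 < W ^ 2 := by positivity
  have t0 : 0 ≤ t := by linarith
  set χ := 1 - 1 / W ^ 2 with hχ
  have e : χ = t / W ^ 2 := by rw [hχ]; field_simp; linarith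
  have χ0 : 0 ≤ χ := by rw [e]; positivity
  have h1 : (GA / W ^ 2) ^ 2 ≤ χ * (k0 ^ 3 / 256) := by
    rw [div_pow, div_le_iff₀ (by positivity), e]
    have : t / W ^ 2 * (k0 ^ 3 / 256) * (W ^ 2) ^ 2 = t * (k0 ^ 3 / 256) * W ^ 2 := by
      field_simp
    rw [this]
    exact hGA.trans (le_mul_of_one_le_right (by positivity) W2)
  have h2 : (U * GA / W ^ 2) ^ 2 ≤ (k0 / 16 * χ + k0 ^ 2 * (U ^ 2 / 4) / 16) ^ 2 := by
    rw [mul_div_assoc, mul_pow]
    have := mul_le_mul_of_nonneg_left h1 (sq_nonneg U)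
    nlinarith [sq_nonneg (k0 / 16 * χ - k0 ^ 2 * (U ^ 2 / 4) / 16)]
  exact (abs_le.1 (abs_le_of_sq_le_sq' h2 (by positivity) |> abs_le.2)).1

theorem core {U W Q σ j a Ga k0 c0 c N0 V θ u0 v w GA t P A jj Bw : ℝ}
    (hW : 1 ≤ W) (hWt : W ^ 2 = 1 + t) (hU : U = u0 + v) (u0p : 0 < u0) (u1 : u0 ≤ 1)
    (v0 : 0 ≤ v) (hP : U ^ 2 / 4 ≤ P) (k0p : 0 < k0) (kQ : k0 ≤ Q) (QV : Q ≤ V) (cp : 0 < c)
    (cc0 : c ≤ c0) (A0 : 0 ≤ A) (A1 : A ≤ c0) (ha : a = c - A) (N0p : 0 < N0)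
    (hGa : Ga = -(c / N0) * (W ^ 2 * w) - GA) (hw : c * |w| ≤ Bw)
    (hGA : GA ^ 2 ≤ t * (k0 ^ 3 / 256)) (P1 : 2 * c0 * P ≤ 1) (P2 : 32 * c0 ^ 2 * P ≤ k0)
    (P3 : 16 * c0 * P ≤ k0 * N0)
    (hcase : (A = 0 ∧ GA = 0 ∧ Q = k0 ∧ θ = 0 ∧ 0 ≤ σ ∧ j = jj) ∨
      (σ = 0 ∧ j = 0 ∧ 0 ≤ jj ∧ (Q = k0 ∨ A = c0) ∧ θ * V ^ 2 ≤ Q ^ 2)) :
    -k0 * jj + 2 * k0 * c * σ + 3 / 4 * V ^ 2 * (θ * (v ^ 2 / 4))
        - u0 * (Bw / N0 + c0 * k0 * (1 + P) + V ^ 2) ≤
      slow U W Q σ (U ^ 2 / 4 - u0 ^ 2 / 4 - σ) j a Ga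
        - c / N0 * (v * w + v ^ 2 / 4 * (1 - 1 / W ^ 2)) + 2 * k0 * c * (v ^ 2 / 4) := by
  have W0 : 0 < W := by linarith
  have U0 : 0 < U := by linarith
  have c0p : 0 < c0 := cp.trans_le cc0
  have p0 : 0 < U ^ 2 / 4 := by positivity
  have iw0 : 0 < 1 / W := by positivity
  have iw1 : 1 / W ≤ 1 := by rw [div_le_one W0]; exact hW
  have e2 : 1 / W ^ 2 = (1 / W) ^ 2 := by field_simp
  have χ0 : 0 ≤ 1 - 1 / W ^ 2 := by rw [e2]; exact sub_nonneg.2 (pow_le_one₀ iw0.le iw1)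
  have χy : 1 - 1 / W ^ 2 ≤ 2 * (1 - 1 / W) := by rw [e2]; linarith [sq_nonneg (1 - 1 / W)]
  have hq : v ^ 2 / 4 ≤ U ^ 2 / 4 := by
    rw [hU]; linarith [sq_nonneg u0, mul_nonneg u0p.le v0]
  have haa : |a| ≤ c0 := by rw [ha, abs_le]; constructor <;> linarith
  have h1 := chi_block hW U0 χ0 χy hq hP k0p cp cc0 haa N0p P2 P3
  have h2 : -(u0 * (Bw / N0)) ≤ c / N0 * (u0 * w) := by
    have b1 : -Bw ≤ c * w := by
      have := mul_le_mul_of_nonneg_left (neg_abs_le w) cp.le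
      linarith
    have b2 : c / N0 * (u0 * w) = u0 * (c * w / N0) := by ring
    have b3 : -Bw / N0 ≤ c * w / N0 := div_le_div_of_nonneg_right b1 N0p.le
    have b4 := mul_le_mul_of_nonneg_left b3 u0p.le
    rw [b2]
    have : u0 * (-Bw / N0) = -(u0 * (Bw / N0)) := by ring
    linarith
  have h3 : k0 * (1 - 1 / W ^ 2) ≤ Q * (1 - 1 / W ^ 2) := mul_le_mul_of_nonneg_right kQ χ0
  have h4 : U * Ga / W ^ 2 = -(c / N0 * (v * w)) - c / N0 * (u0 * w) - U * GA / W ^ 2 := by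
    rw [hGa, hU]; field_simp; ring
  have h5 : c * k0 * (u0 * v) ≤ u0 * (c0 * k0 * (1 + P)) := by
    have b1 : v ≤ 1 + P := by linarith [sq_nonneg (U / 2 - 1)]
    have b2 : c * v ≤ c0 * (1 + P) := mul_le_mul cc0 b1 v0 c0p.le
    have b3 := mul_le_mul_of_nonneg_left b2 (mul_pos u0p k0p).le
    linarith
  have er : U ^ 2 / 4 - u0 ^ 2 / 4 = v ^ 2 / 4 + u0 * v / 2 := by rw [hU]; ring
  have hr0 : 0 ≤ U ^ 2 / 4 - u0 ^ 2 / 4 := by rw [er]; positivity
  have hV : 0 ≤ u0 * V ^ 2 := by positivity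
  have kχ : 0 ≤ k0 * (1 - 1 / W ^ 2) := mul_nonneg k0p.le χ0
  unfold slow
  rw [h4]
  rcases hcase with ⟨rA, rG, rQ, rθ, σ0, rj⟩ | ⟨rσ, rj, jj0, hQ, hθ⟩
  · have ea : a = c := by rw [ha, rA, sub_zero]
    have b1 : 0 ≤ 7 / 8 * Q ^ 2 * (U ^ 2 / 4 - u0 ^ 2 / 4 - σ) ^ 2 / (U ^ 2 / 4) := by positivity
    have y0 : 0 ≤ 1 - 1 / W := by linarith
    have b2 : 2 * c * k0 * σ * (1 - 1 / W) ≤ Q * σ * (1 - 1 / W) / (U ^ 2 / 4) := by
      rw [le_div_iff₀ p0, rQ]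
      have : 2 * c * (U ^ 2 / 4) ≤ 1 := by
        have := mul_le_mul cc0 hP p0.le c0p.le
        linarith
      have b := mul_le_mul_of_nonneg_left this (show 0 ≤ k0 * σ * (1 - 1 / W) by positivity)
      linarith
    have b3 : 2 * a * Q * (U ^ 2 / 4 - u0 ^ 2 / 4 - σ) / W =
        2 * c * k0 * (v ^ 2 / 4 + u0 * v / 2 - σ)
          - 2 * c * k0 * (U ^ 2 / 4 - u0 ^ 2 / 4) * (1 - 1 / W)
          + 2 * c * k0 * σ * (1 - 1 / W) := by
      rw [ea, rQ, ← er]; field_simp; ring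
    have b4 : 0 ≤ 2 * c * k0 * (U ^ 2 / 4 - u0 ^ 2 / 4) * (1 - 1 / W) := by positivity
    have b5 : Q * j = k0 * jj := by rw [rQ, rj]
    rw [b3, b5, rG, rθ]
    simp only [mul_zero, zero_div, zero_mul]
    linarith
  · have g1 := grad_block (U := U) hW hWt k0p hGA
    have Q0 : 0 < Q := k0p.trans_le kQ
    have b1 : 7 / 8 * Q ^ 2 * (U ^ 2 / 4 - 2 * (u0 ^ 2 / 4)) ≤
        7 / 8 * Q ^ 2 * (U ^ 2 / 4 - u0 ^ 2 / 4 - σ) ^ 2 / (U ^ 2 / 4) := by
      rw [le_div_iff₀ p0, rσ]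
      have : 0 ≤ Q ^ 2 * (u0 ^ 2 / 4) ^ 2 := by positivity
      linarith
    have b2 : k0 ^ 2 * (U ^ 2 / 4) ≤ Q ^ 2 * (U ^ 2 / 4) :=
      mul_le_mul_of_nonneg_right (pow_le_pow_left₀ k0p.le kQ 2) p0.le
    have b3 : Q ^ 2 * (v ^ 2 / 4) ≤ Q ^ 2 * (U ^ 2 / 4) := mul_le_mul_of_nonneg_left hq (sq_nonneg _)
    have b4 : θ * V ^ 2 * (v ^ 2 / 4) ≤ Q ^ 2 * (v ^ 2 / 4) :=
      mul_le_mul_of_nonneg_right hθ (by positivity)
    have b5 : Q ^ 2 * u0 ^ 2 ≤ u0 * V ^ 2 := by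
      have c1 : Q ^ 2 ≤ V ^ 2 := pow_le_pow_left₀ Q0.le QV 2
      have c2 : u0 ^ 2 ≤ u0 := by linarith [mul_le_mul_of_nonneg_left u1 u0p.le]
      linarith [mul_le_mul c1 c2 (sq_nonneg _) (sq_nonneg _)]
    have b6 : 2 * a * Q * (U ^ 2 / 4 - u0 ^ 2 / 4 - σ) / W ≤
        2 * c * k0 * (v ^ 2 / 4 + u0 * v / 2) := by
      rw [rσ, sub_zero, ← er, div_eq_mul_one_div]
      rcases hQ with hQ | hQ
      · rw [hQ]
        have c1 : a * (1 / W) ≤ c := by
          have : a * (1 / W) ≤ c * (1 / W) := mul_le_mul_of_nonneg_right (by linarith) iw0.le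
          linarith [mul_le_mul_of_nonneg_left iw1 cp.le]
        have := mul_le_mul_of_nonneg_left c1
          (show 0 ≤ 2 * k0 * (U ^ 2 / 4 - u0 ^ 2 / 4) by positivity)
        linarith
      · have c1 : 0 ≤ -a := by linarith
        have c2 : 0 ≤ 2 * -a * Q * (U ^ 2 / 4 - u0 ^ 2 / 4) * (1 / W) := by positivity
        have c3 : 0 ≤ 2 * c * k0 * (U ^ 2 / 4 - u0 ^ 2 / 4) := by positivity
        linarith
    have b7 : 0 ≤ k0 * jj := by positivity
    have b8 : 0 ≤ Q ^ 2 * (U ^ 2 / 4) := by positivity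
    have b9 : Q * σ * (1 - 1 / W) / (U ^ 2 / 4) = 0 := by rw [rσ]; simp
    have b10 : 2 * k0 * c * σ = 0 := by rw [rσ]; simp
    rw [b9, b10, rj]
    linarith

theorem exp_gain {k0 c0 N0 N q : ℝ} (k0p : 0 < k0) (c0p : 0 < c0) (N0p : 0 < N0) (q0 : 0 ≤ q)
    (q1 : q ≤ N0) : 2 * k0 * (c0 * Real.exp (-N / N0)) * q ≤
      4 * k0 * c0 * N0 * (1 - Real.exp (-(N + q) / N0))
        - 4 * k0 * c0 * N0 * (1 - Real.exp (-N / N0)) := by
  have e : Real.exp (-(N + q) / N0) = Real.exp (-N / N0) * Real.exp (-(q / N0)) := by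
    rw [← Real.exp_add]; congr 1; ring
  have x0 : 0 ≤ q / N0 := by positivity
  have x1 : q / N0 ≤ 1 := by rw [div_le_one N0p]; exact q1
  have h1 : Real.exp (-(q / N0)) ≤ 1 - q / N0 / 2 := by
    rw [Real.exp_neg, inv_le_comm₀ (Real.exp_pos _) (by linarith)]
    refine le_trans ?_ (Real.add_one_le_exp _)
    rw [inv_le_comm₀ (by linarith) (by linarith), ← one_div, div_le_iff₀ (by linarith)]
    nlinarith
  have h2 := mul_le_mul_of_nonneg_left h1
    (show 0 ≤ 4 * k0 * c0 * N0 * Real.exp (-N / N0) by positivity)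
  have h3 : 4 * k0 * c0 * N0 * Real.exp (-N / N0) * (q / N0 / 2) =
      2 * k0 * (c0 * Real.exp (-N / N0)) * q := by field_simp; ring
  rw [e]
  nlinarith

theorem w_bound {c0 N0 N n' w : ℝ} (c0p : 0 < c0) (N0p : 0 < N0) (hN : 0 ≤ N) (hn : 0 ≤ n')
    (hw : w ^ 2 ≤ N * n') : c0 * Real.exp (-N / N0) * |w| ≤ c0 * (1 + n' * N0) := by
  have h1 : |w| ≤ 1 + n' * N := by nlinarith [sq_abs w, sq_nonneg (|w| - 1), abs_nonneg w]
  have h2 : Real.exp (-N / N0) ≤ 1 := Real.exp_le_one_iff.2 (by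
    rw [neg_div]; exact neg_nonpos.2 (by positivity))
  have h3 : Real.exp (-N / N0) * N ≤ N0 := by
    have b1 := Real.add_one_le_exp (N / N0)
    have b2 : Real.exp (-N / N0) * Real.exp (N / N0) = 1 := by
      rw [← Real.exp_add, neg_div, neg_add_cancel, Real.exp_zero]
    have b3 := mul_le_mul_of_nonneg_left b1 (Real.exp_pos (-N / N0)).le
    have b4 : Real.exp (-N / N0) * (N / N0) ≤ 1 := by
      nlinarith [Real.exp_pos (-N / N0)]
    rw [← mul_div_assoc, div_le_one N0p] at b4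
    exact b4
  have h4 := mul_le_mul_of_nonneg_left h1 (Real.exp_pos (-N / N0)).le
  have h5 := mul_le_mul_of_nonneg_left h3 hn
  rw [mul_assoc]
  refine mul_le_mul_of_nonneg_left ?_ c0p.le
  nlinarith

theorem exp_two : 1 / 9 ≤ Real.exp (-2) := by
  rw [Real.exp_neg, one_div]
  refine inv_anti₀ (Real.exp_pos _) ?_
  have h := Real.exp_one_lt_d9
  have e : Real.exp 2 = Real.exp 1 * Real.exp 1 := by rw [← Real.exp_add]; norm_num
  rw [e]
  nlinarith [Real.exp_pos 1]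

end Crest.Agent.N222.A.Ph0

end
end

-- ▼ part N222/A/Phase0
section

/-! # Row 222, part A: phase 0 (helper88) -/

set_option autoImplicit false
set_option linter.dupNamespace false
open Filter Set

noncomputable section

namespace Crest.Agent.N222.A

namespace Ph0

/-- the constants of phase 0 -/
structure Cst (n' K0 N0 : ℝ) where
  k0 : ℝ
  c0 : ℝ
  LA : ℝ
  LV : ℝ
  r0 : ℝ
  z0 : ℝ
  V : ℝ
  ab : ℝ
  u0 : ℝ
  ε : ℝ
  P : ℝ
  k0p : 0 < k0
  c0p : 0 < c0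
  LAp : 0 < LA
  LVp : 0 < LV
  z0p : 0 < z0
  zr : z0 ≤ r0
  hr : r0 ^ 2 * k0 = 1
  hz : z0 ^ 2 * V = 1
  hLA : 256 * cc ^ 2 * c0 ^ 2 * K0 ≤ LA ^ 2 * k0 ^ 3
  hLV : 256 * cc ^ 2 * K0 ≤ LV ^ 2 * k0
  ab0 : 0 ≤ ab
  u0p : 0 < u0
  u1 : u0 ≤ 1
  εp : 0 < ε
  hP : u0 ^ 2 / 4 + ab ≤ P
  P1 : 2 * c0 * P ≤ 1
  P2 : 32 * c0 ^ 2 * P ≤ k0
  P3 : 16 * c0 * P ≤ k0 * N0
  P4 : P ≤ N0
  fl : u0 * (c0 * (1 + n' * N0) / N0 + c0 * k0 * (1 + P) + V ^ 2) ≤ ε / 2

variable {n' s0 K0 N0 : ℝ} (C : Cst n' K0 N0)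

/-- `A` as a function of the distance -/
def Cst.A (s : ℝ) : ℝ := C.c0 * cut ((s - 1) / C.LA)

/-- `H` as a function of the distance -/
def Cst.H (s : ℝ) : ℝ := C.z0 + (C.r0 - C.z0) * (1 - cut ((s - 1 - C.LA) / C.LV))

/-- `Q` as a function of the distance -/
def Cst.Q (s : ℝ) : ℝ := (C.H s ^ 2)⁻¹

theorem Cst.H_ge (s : ℝ) : C.z0 ≤ C.H s :=
  le_add_of_nonneg_right (mul_nonneg (sub_nonneg.2 C.zr) (sub_nonneg.2 (cut_le_one _)))

theorem Cst.H_le (s : ℝ) : C.H s ≤ C.r0 := by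
  have := mul_nonneg (sub_nonneg.2 C.zr) (cut_nonneg ((s - 1 - C.LA) / C.LV))
  unfold Cst.H
  linarith

theorem Cst.H_pos (s : ℝ) : 0 < C.H s := C.z0p.trans_le (C.H_ge s)

theorem Cst.Q_pos (s : ℝ) : 0 < C.Q s := inv_pos.2 (pow_pos (C.H_pos s) 2)

theorem Cst.k0_eq : C.k0 = (C.r0 ^ 2)⁻¹ := eq_inv_of_mul_eq_one_right C.hr

theorem Cst.V_eq : C.V = (C.z0 ^ 2)⁻¹ := eq_inv_of_mul_eq_one_right C.hz

theorem Cst.k0_le_Q (s : ℝ) : C.k0 ≤ C.Q s := by
  rw [C.k0_eq]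
  exact inv_anti₀ (pow_pos (C.H_pos s) 2) (pow_le_pow_left₀ (C.H_pos s).le (C.H_le s) 2)

theorem Cst.Q_le_V (s : ℝ) : C.Q s ≤ C.V := by
  rw [C.V_eq]
  exact inv_anti₀ (pow_pos C.z0p 2) (pow_le_pow_left₀ C.z0p.le (C.H_ge s) 2)

theorem Cst.Q_eq_k0 {s : ℝ} (h : s ≤ 1 + C.LA) : C.Q s = C.k0 := by
  rw [C.k0_eq, Cst.Q, Cst.H, cut_zero (div_nonpos_of_nonpos_of_nonneg (by linarith) C.LVp.le)]
  congr 2
  ring

theorem Cst.Q_eq_V {s : ℝ} (h : 1 + C.LA + C.LV ≤ s) : C.Q s = C.V := by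
  rw [C.V_eq, Cst.Q, Cst.H, cut_one ((one_le_div C.LVp).2 (by linarith))]
  congr 2
  ring

theorem Cst.A_nonneg (s : ℝ) : 0 ≤ C.A s := mul_nonneg C.c0p.le (cut_nonneg _)

theorem Cst.A_le (s : ℝ) : C.A s ≤ C.c0 := mul_le_of_le_one_right C.c0p.le (cut_le_one _)

theorem Cst.A_zero {s : ℝ} (h : s ≤ 1) : C.A s = 0 := by
  rw [Cst.A, cut_zero (div_nonpos_of_nonpos_of_nonneg (by linarith) C.LAp.le), mul_zero]

theorem Cst.A_one {s : ℝ} (h : 1 + C.LA ≤ s) : C.A s = C.c0 := by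
  rw [Cst.A, cut_one ((one_le_div C.LAp).2 (by linarith)), mul_one]

theorem Cst.dA (s : ℝ) :
    HasDerivAt C.A (C.c0 * (deriv cut ((s - 1) / C.LA) * (1 / C.LA))) s :=
  ((hasDerivAt_cut _).comp s (((hasDerivAt_id s).sub_const 1).div_const C.LA)).const_mul C.c0

theorem Cst.dH (s : ℝ) :
    HasDerivAt C.H ((C.r0 - C.z0) * -(deriv cut ((s - 1 - C.LA) / C.LV) * (1 / C.LV))) s :=
  ((((hasDerivAt_cut _).comp s ((((hasDerivAt_id s).sub_const 1).sub_const C.LA).div_const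
    C.LV)).const_sub 1).const_mul (C.r0 - C.z0)).const_add C.z0

variable {Z : Type} {A : Alg Z} {d : Z → ℝ}

theorem Cst.smA (hd : A.Sm d) : A.Sm fun z => C.A (d z) :=
  Alg.smul _ (Alg.cut (Alg.div_const (Alg.sub_const hd 1) _))

theorem Cst.smH (hd : A.Sm d) : A.Sm fun z => C.H (d z) :=
  Alg.const_add _ (Alg.smul _ (Alg.const_sub 1
    (Alg.cut (Alg.div_const (Alg.sub_const (Alg.sub_const hd 1) _) _))))

theorem Cst.smQ (hd : A.Sm d) : A.Sm fun z => C.Q (d z) :=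
  Alg.inv (Alg.pow (C.smH hd) 2) fun _ => pow_pos (C.H_pos _) 2

theorem Cst.gamA (T : Pt A) (hd : A.Sm d) (h : T.Γ d d ≤ K0) :
    T.Γ (fun z => C.A (d z)) (fun z => C.A (d z)) ≤ C.k0 ^ 3 / 256 := by
  rw [T.chain_self hd (C.smA hd) (C.dA _)]
  have h0 := T.nonneg hd
  have h1 := deriv_cut_sq_le ((d T.p - 1) / C.LA)
  have hL := C.LAp
  have e : (C.c0 * (deriv cut ((d T.p - 1) / C.LA) * (1 / C.LA))) ^ 2 * T.Γ d d =
      C.c0 ^ 2 * (deriv cut ((d T.p - 1) / C.LA) ^ 2 * T.Γ d d) / C.LA ^ 2 := by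
    field_simp
  rw [e, div_le_div_iff₀ (by positivity) (by norm_num)]
  have h2 := mul_le_mul_of_nonneg_left (mul_le_mul h1 h h0 (sq_nonneg _)) (sq_nonneg C.c0)
  linarith [C.hLA]

theorem Cst.gamQ (T : Pt A) (hd : A.Sm d) (h : T.Γ d d ≤ K0) :
    T.Γ (fun z => C.Q (d z)) (fun z => C.Q (d z)) ≤ C.Q (d T.p) ^ 3 / 64 := by
  have hH := C.H_pos (d T.p)
  have h3 : T.Γ (fun z => C.H (d z)) (fun z => C.H (d z)) ≤ 1 / 256 := by
    rw [T.chain_self hd (C.smH hd) (C.dH _)]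
    have h0 := T.nonneg hd
    have h1 := deriv_cut_sq_le ((d T.p - 1 - C.LA) / C.LV)
    have hL := C.LVp
    have e : ((C.r0 - C.z0) * -(deriv cut ((d T.p - 1 - C.LA) / C.LV) * (1 / C.LV))) ^ 2 *
        T.Γ d d = (C.r0 - C.z0) ^ 2 *
          (deriv cut ((d T.p - 1 - C.LA) / C.LV) ^ 2 * T.Γ d d) / C.LV ^ 2 := by
      field_simp
    rw [e, div_le_div_iff₀ (by positivity) (by norm_num)]
    have h2 : (C.r0 - C.z0) ^ 2 ≤ C.r0 ^ 2 :=
      pow_le_pow_left₀ (sub_nonneg.2 C.zr) (by linarith [C.z0p]) 2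
    have h4 := mul_le_mul h2 (mul_le_mul h1 h h0 (sq_nonneg _)) (mul_nonneg (sq_nonneg _) h0)
      (sq_nonneg _)
    have h5 := mul_le_mul_of_nonneg_left C.hLV (sq_nonneg C.r0)
    have h6 : C.r0 ^ 2 * (C.LV ^ 2 * C.k0) = C.LV ^ 2 := by
      linear_combination C.LV ^ 2 * C.hr
    linarith
  have hd2 : HasDerivAt (fun t : ℝ => (t ^ 2)⁻¹) (-(2 * C.H (d T.p)) / (C.H (d T.p) ^ 2) ^ 2)
      (C.H (d T.p)) := by
    exact ((hasDerivAt_pow 2 (C.H (d T.p))).inv (pow_pos hH 2).ne').congr_deriv (by simp)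
  have h4 := T.chain_self (φ := fun t : ℝ => (t ^ 2)⁻¹) (C.smH hd) (C.smQ hd) hd2
  have e : (-(2 * C.H (d T.p)) / (C.H (d T.p) ^ 2) ^ 2) ^ 2 = 4 * C.Q (d T.p) ^ 3 := by
    unfold Cst.Q
    field_simp
    norm_num
  rw [e] at h4
  have h5 := mul_le_mul_of_nonneg_left h3 (pow_pos (C.Q_pos (d T.p)) 3).le
  have h6 : T.Γ (fun z => C.Q (d z)) (fun z => C.Q (d z)) =
      4 * C.Q (d T.p) ^ 3 * T.Γ (fun z => C.H (d z)) (fun z => C.H (d z)) := h4
  linarith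

theorem sum_update {G : Type} [Fintype G] [DecidableEq G] (t : G → ℕ) (g : G) (f : G → ℝ) :
    ∑ g', (Function.update t g (t g + 1) g' : ℝ) * f g' = ∑ g', (t g' : ℝ) * f g' + f g := by
  have : ∀ g', (Function.update t g (t g + 1) g' : ℝ) * f g' =
      (t g' : ℝ) * f g' + if g' = g then f g else 0 := by
    intro g'
    by_cases h : g' = g
    · subst h; simp [add_mul]
    · simp [h]
  simp [this, Finset.sum_add_distrib]

/-- the invariant -/
def J (W : World n' s0 K0) (j : W.Pi → W.G → ℝ) (t : W.G → ℕ) (st : W.St) (M : W.G → W.Z → ℝ)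
    (π : W.Pi) : Prop :=
  s0 - C.k0 * C.ab * ∑ g, (t g : ℝ) * j π g
      + 2 * C.k0 * (C.c0 * Real.exp (-W.N M (W.ev π) / N0)) *
        (C.ab * ∑ g, (t g : ℝ) * W.χ g (W.ev π))
      + 3 / 4 * C.V ^ 2 * W.Mf (1 + C.LA + C.LV) M (W.ev π) - C.ε * ∑ g, (t g : ℝ) * 1 ≤
    W.E st π - C.c0 * Real.exp (-W.N M (W.ev π) / N0) / N0 * (W.pt st π).Γ (W.N M) (W.N M)
      + 4 * C.k0 * C.c0 * N0 * (1 - Real.exp (-W.N M (W.ev π) / N0))

theorem one_step (hS : SlowStmt) (hn : 1 ≤ n') (N0p : 0 < N0) (W : World n' s0 K0)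
    (j : W.Pi → W.G → ℝ)
    (hj : ∀ᶠ π in W.L, ∀ g, 0 ≤ j π g ∧
      (W.pt W.st0 π).Γ (W.χ g) (W.χ g) ≤ j π g * W.χ g (W.ev π))
    (t : W.G → ℕ) (g : W.G) {st : W.St} {M : W.G → W.Z → ℝ} (ok : W.Ok st M)
    (hJ : ∀ᶠ π in W.L, J C W j t st M π) :
    ∃ st' M', W.Ok st' M' ∧ ∀ᶠ π in W.L, J C W j (Function.update t g (t g + 1)) st' M' π := by
  have sN := ok.toMass.sm_N
  have sd := W.d_sm g
  have sc : W.A.Sm fun z => C.c0 * Real.exp (-W.N M z / N0) :=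
    Alg.smul _ (Alg.exp (Alg.div_const (Alg.neg sN) _))
  have sσ : W.A.Sm fun z => C.ab * W.χ g z := Alg.smul _ (W.χ_sm g)
  obtain ⟨v, st', hv, suv, hb, hvs, hle, -, hΓv, hE⟩ := World.step hS st g
    (Q := fun z => C.Q (W.d g z)) (σ := fun z => C.ab * W.χ g z)
    (a := fun z => C.c0 * Real.exp (-W.N M z / N0) - C.A (W.d g z)) (abar := C.ab) (u0 := C.u0)
    (ε := C.ε / 2) (C.smQ sd) sσ (Alg.sub sc (C.smA sd)) (fun _ => C.Q_pos _)
    (fun z => ⟨mul_nonneg C.ab0 (W.χ_mem g z).1, mul_le_of_le_one_right C.ab0 (W.χ_mem g z).2⟩)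
    (World.su_mono (W.χ_su g) fun z h => by rw [h, mul_zero]) C.u0p (half_pos C.εp)
  refine ⟨st', upd M g v, ⟨ok.toMass.upd hv suv hvs, ok.le.trans hle⟩, ?_⟩
  have eN : W.N (upd M g v) = fun z => W.N M z + v z ^ 2 / 4 := by
    funext z
    simpa [World.N] using sum_upd (fun _ => 1) M g v z
  have sq : W.A.Sm fun z => v z ^ 2 / 4 := Alg.div_const (Alg.pow hv 2) 4
  filter_upwards [hJ, hE, W.init, hj, ok.toMass.fi] with π h1 h2 h3 h4 h5
  have eM : W.Mf (1 + C.LA + C.LV) (upd M g v) (W.ev π) = W.Mf (1 + C.LA + C.LV) M (W.ev π) +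
      cut (W.d g (W.ev π) - (1 + C.LA + C.LV)) * (v (W.ev π) ^ 2 / 4) :=
    sum_upd (fun g' => cut (W.d g' (W.ev π) - (1 + C.LA + C.LV))) M g v (W.ev π)
  unfold J at h1 ⊢
  rw [sum_update, sum_update, sum_update, eM, eN]
  beta_reduce
  set T := W.pt st π with hT
  set T' := W.pt st' π with hT'
  have hp : T.p = W.ev π := W.pt_p st π
  have hp' : T'.p = W.ev π := W.pt_p st' π
  have t0 : 0 ≤ T.Γ v v := T.nonneg hv
  have N0' : 0 ≤ W.N M (W.ev π) := ok.toMass.N_nonneg _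
  have v0 := (hb (W.ev π)).1
  have q0 : 0 ≤ v (W.ev π) ^ 2 / 4 := by positivity
  have hUP : (C.u0 + v (W.ev π)) ^ 2 / 4 ≤ C.P := by linarith [(hb (W.ev π)).2, C.hP]
  have q1 : v (W.ev π) ^ 2 / 4 ≤ N0 := by
    linarith [C.P4, sq_nonneg C.u0, mul_nonneg C.u0p.le v0]
  have dq : HasDerivAt (fun s : ℝ => s ^ 2 / 4) (v (W.ev π) / 2) (v T'.p) := by
    rw [hp']
    exact ((hasDerivAt_pow 2 (v (W.ev π))).div_const 4).congr_deriv (by simp; ring)
  have sW : √(1 + T.Γ v v) ^ 2 = 1 + T.Γ v v := Real.sq_sqrt (by linarith)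
  have W1 : 1 ≤ √(1 + T.Γ v v) := Real.le_sqrt_of_sq_le (by linarith)
  have evv : T'.Γ v v = 1 - 1 / √(1 + T.Γ v v) ^ 2 := by
    have h : T'.Γ v v = T.Γ v v / (1 + T.Γ v v) := hΓv π v hv
    have : 1 + T.Γ v v ≠ 0 := by linarith
    rw [h, sW]; field_simp; ring
  have vv1 : T'.Γ v v ≤ 1 := by
    rw [evv]; exact sub_le_self _ (by positivity)
  have gN : T'.Γ (W.N M) (W.N M) ≤ T.Γ (W.N M) (W.N M) := hle π _ sN
  have e1 : T'.Γ (fun z => W.N M z + v z ^ 2 / 4) (fun z => W.N M z + v z ^ 2 / 4) ≤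
      T.Γ (W.N M) (W.N M) + (v (W.ev π) * T'.Γ v (W.N M) +
        v (W.ev π) ^ 2 / 4 * (1 - 1 / √(1 + T.Γ v v) ^ 2)) := by
    rw [T'.add_self sN sq, T'.chain_self (φ := fun s : ℝ => s ^ 2 / 4) hv sq dq,
      T'.chain_right (φ := fun s : ℝ => s ^ 2 / 4) hv sq sN dq, T'.symm sN hv, evv]
    linarith
  have e0 := T'.nonneg (W.A.add sN sq)
  have cle : C.c0 * Real.exp (-(W.N M (W.ev π) + v (W.ev π) ^ 2 / 4) / N0) ≤
      C.c0 * Real.exp (-W.N M (W.ev π) / N0) :=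
    mul_le_mul_of_nonneg_left (Real.exp_le_exp.2 (div_le_div_of_nonneg_right (by linarith) N0p.le))
      C.c0p.le
  have cp : 0 < C.c0 * Real.exp (-W.N M (W.ev π) / N0) := mul_pos C.c0p (Real.exp_pos _)
  have cc0 : C.c0 * Real.exp (-W.N M (W.ev π) / N0) ≤ C.c0 :=
    mul_le_of_le_one_right C.c0p.le (Real.exp_le_one_iff.2 (by
      rw [neg_div]; exact neg_nonpos.2 (by positivity)))
  have e2 := mul_le_mul (div_le_div_of_nonneg_right cle N0p.le) e1 e0 (by positivity)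
  have e3 := mul_le_mul_of_nonneg_right cle (show 0 ≤ 2 * C.k0 * (C.ab *
      (∑ g, (t g : ℝ) * W.χ g (W.ev π) + W.χ g (W.ev π))) from
    mul_nonneg (by linarith [C.k0p]) (mul_nonneg C.ab0 (add_nonneg
      (Finset.sum_nonneg fun g _ => mul_nonneg (Nat.cast_nonneg _) (W.χ_mem g _).1)
      (W.χ_mem g _).1)))
  have e4 := exp_gain (N := W.N M (W.ev π)) C.k0p C.c0p N0p q0 q1
  have j0 : 0 ≤ C.ab * j π g := mul_nonneg C.ab0 (h4 g).1
  by_cases hO : W.ev π ∈ W.O g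
  · have gd : T.Γ (W.d g) (W.d g) ≤ K0 := (ok.le π _ sd).trans (h3.2.2.2.1 g hO).1
    have gQ := C.gamQ T sd gd
    rw [hp] at gQ
    have gχ : T.Γ (W.χ g) (W.χ g) ≤ j π g * W.χ g (W.ev π) :=
      (ok.le π _ (W.χ_sm g)).trans (h4 g).2
    have gσ : T.Γ (fun z => C.ab * W.χ g z) (fun z => C.ab * W.χ g z) ≤
        C.ab * j π g * (C.ab * W.χ g (W.ev π)) := by
      rw [T.smul_left _ (W.χ_sm g) sσ, T.smul_right _ (W.χ_sm g) (W.χ_sm g)]
      linarith [mul_le_mul_of_nonneg_left gχ (mul_nonneg C.ab0 C.ab0)]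
    have hw2 : T'.Γ v (W.N M) ^ 2 ≤ W.N M (W.ev π) * n' := by
      have b1 := T'.cs hv sN
      have b2 := mul_le_mul vv1 gN (T'.nonneg sN) zero_le_one
      have b3 := h5.total ok.toMass.sm fun g => ok.toMass.nn g _
      rw [hp] at b3
      exact b1.trans (b2.trans (by rw [one_mul]; exact b3))
    have hw := w_bound C.c0p N0p N0' (by linarith) hw2
    have dc : HasDerivAt (fun s : ℝ => C.c0 * Real.exp (-s / N0))
        (C.c0 * (Real.exp (-W.N M (W.ev π) / N0) * (-1 / N0))) (W.N M T.p) := by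
      rw [hp]
      exact (((hasDerivAt_id _).neg.div_const N0).exp).const_mul C.c0
    have hGa : T.Γ v (fun z => C.c0 * Real.exp (-W.N M z / N0) - C.A (W.d g z)) =
        -(C.c0 * Real.exp (-W.N M (W.ev π) / N0) / N0) *
          (√(1 + T.Γ v v) ^ 2 * T'.Γ v (W.N M)) - T.Γ v (fun z => C.A (W.d g z)) := by
      have h : T'.Γ v (W.N M) = T.Γ v (W.N M) / (1 + T.Γ v v) := hΓv π _ sN
      rw [T.sub_right sc (C.smA sd) hv,
        T.chain_right (φ := fun s : ℝ => C.c0 * Real.exp (-s / N0)) sN sc hv dc, h, sW]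
      have : 1 + T.Γ v v ≠ 0 := by linarith
      field_simp
    have hGA : T.Γ v (fun z => C.A (W.d g z)) ^ 2 ≤ T.Γ v v * (C.k0 ^ 3 / 256) :=
      (T.cs hv (C.smA sd)).trans (mul_le_mul_of_nonneg_left (C.gamA T sd gd) t0)
    by_cases hd : W.d g (W.ev π) ≤ 1
    · have f1 := h2.2 hO _ j0 gQ gσ
      have f2 := core (θ := cut (W.d g (W.ev π) - (1 + C.LA + C.LV))) (jj := C.ab * j π g)
        (σ := C.ab * W.χ g (W.ev π)) (j := C.ab * j π g) W1 sW rfl C.u0p C.u1 v0 hUP C.k0p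
        (C.k0_le_Q (W.d g (W.ev π))) (C.Q_le_V _) cp cc0 (C.A_nonneg (W.d g (W.ev π))) (C.A_le _)
        rfl N0p hGa hw hGA C.P1 C.P2 C.P3 (Or.inl ⟨C.A_zero hd, by
          rw [T.chain_right sd (C.smA sd) hv (C.dA _), hp, cut_deriv_zero (Or.inl
            (div_nonpos_of_nonpos_of_nonneg (by linarith) C.LAp.le))]
          simp, C.Q_eq_k0 (by linarith [C.LAp]), cut_zero (by linarith [C.LAp, C.LVp]),
          mul_nonneg C.ab0 (W.χ_mem g _).1, rfl⟩)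
      linarith [C.fl]
    · have χ0 : W.χ g (W.ev π) = 0 := by
        by_contra h
        exact hd ((h3.2.2.2.1 g hO).2 (lt_of_le_of_ne (W.χ_mem g _).1 (Ne.symm h)))
      have f1 := h2.2 hO 0 le_rfl gQ (by rw [χ0] at gσ ⊢; simpa using gσ)
      have f2 := core (θ := cut (W.d g (W.ev π) - (1 + C.LA + C.LV))) (jj := C.ab * j π g)
        (σ := C.ab * W.χ g (W.ev π)) (j := 0) W1 sW rfl C.u0p C.u1 v0 hUP C.k0p
        (C.k0_le_Q (W.d g (W.ev π))) (C.Q_le_V _) cp cc0 (C.A_nonneg (W.d g (W.ev π))) (C.A_le _)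
        rfl N0p hGa hw hGA C.P1 C.P2 C.P3 (Or.inr ⟨by rw [χ0, mul_zero], rfl, j0,
          (le_total (W.d g (W.ev π)) (1 + C.LA)).imp C.Q_eq_k0 C.A_one, by
          rcases le_total (W.d g (W.ev π)) (1 + C.LA + C.LV) with h | h
          · rw [cut_zero (by linarith), zero_mul]; positivity
          · rw [C.Q_eq_V h]; exact mul_le_of_le_one_left (sq_nonneg _) (cut_le_one _)⟩)
      linarith [C.fl]
  · obtain ⟨a1, a2⟩ := W.su_out suv hv st π hO
    have a3 := (W.su_out (W.χ_su g) (W.χ_sm g) st π hO).1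
    have a4 := h2.1 hO
    have a5 := mul_nonneg C.k0p.le j0
    have a6 := C.εp
    rw [a1] at e2 e3 e4 ⊢
    rw [a3] at e3 ⊢
    linarith

theorem exists_cst {R0 : ℝ} (hn : 1 ≤ n') (hs : 0 < s0) (hK : 1 ≤ K0) (N0p : 0 < N0)
    (hR : 0 < R0) : ∃ LA LV : ℝ, 0 < LA ∧ 0 < LV ∧ ∀ (Φ : ℝ) (m : ℕ), ∃ (C : Cst n' K0 N0) (R : ℕ),
      C.LA = LA ∧ C.LV = LV ∧ C.k0 * (C.ab * R) * K0 = s0 / 16 ∧ 4 * C.k0 * C.c0 * N0 = s0 / 16 ∧
      2 * C.k0 * C.c0 * (C.ab * R) = 9 * R0 ∧ C.ε * (R * m) ≤ s0 / 8 ∧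
      Φ ≤ 3 / 4 * C.V ^ 2 * (N0 / 100) := by
  have K0p : 0 < K0 := by linarith
  obtain ⟨T0, hT0⟩ : ∃ T0, T0 = 288 * R0 * N0 / s0 := ⟨_, rfl⟩
  have T0p : 0 < T0 := by rw [hT0]; positivity
  obtain ⟨k0, hk0⟩ : ∃ k0, k0 = s0 / (16 * K0 * T0) := ⟨_, rfl⟩
  have k0p : 0 < k0 := by rw [hk0]; positivity
  obtain ⟨c0, hc0⟩ : ∃ c0, c0 = s0 / (64 * N0 * k0) := ⟨_, rfl⟩
  have c0p : 0 < c0 := by rw [hc0]; positivity
  have big : ∀ x y : ℝ, 0 ≤ x → 0 < y → x ≤ (1 + x / y) ^ 2 * y := by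
    intro x y hx hy
    have h1 : 0 ≤ x / y := by positivity
    have h2 : x / y ≤ (1 + x / y) ^ 2 := by nlinarith
    rwa [div_le_iff₀ hy] at h2
  refine ⟨1 + 256 * cc ^ 2 * c0 ^ 2 * K0 / k0 ^ 3, 1 + 256 * cc ^ 2 * K0 / k0, by positivity,
    by positivity, fun Φ m => ?_⟩
  obtain ⟨B, B1, hB⟩ : ∃ B : ℝ, 1 ≤ B ∧ Φ ≤ 3 / 4 * B * (N0 / 100) := by
    refine ⟨max 1 (400 * Φ / (3 * N0)), le_max_left _ _, ?_⟩
    have h1 := le_max_right 1 (400 * Φ / (3 * N0))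
    rw [div_le_iff₀ (by positivity)] at h1
    linarith
  have r0p : 0 < √k0⁻¹ := Real.sqrt_pos.2 (inv_pos.2 k0p)
  obtain ⟨z0, z0p, zr, zB⟩ : ∃ z0 : ℝ, 0 < z0 ∧ z0 ≤ √k0⁻¹ ∧ z0 ≤ B⁻¹ :=
    ⟨min _ _, lt_min r0p (inv_pos.2 (by linarith)), min_le_left _ _, min_le_right _ _⟩
  have hV : B ≤ ((z0 ^ 2)⁻¹) ^ 2 := by
    have h1 : B ≤ z0⁻¹ := (le_inv_comm₀ z0p (by linarith)).1 zB
    have h2 : (z0 ^ 2)⁻¹ = z0⁻¹ ^ 2 := (inv_pow _ _).symm
    have h3 : B ^ 2 ≤ z0⁻¹ ^ 2 := pow_le_pow_left₀ (by linarith) h1 2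
    have h4 : (B ^ 2) ^ 2 ≤ (z0⁻¹ ^ 2) ^ 2 := pow_le_pow_left₀ (by positivity) h3 2
    have h5 : B ≤ B ^ 2 := by nlinarith
    have h6 : B ^ 2 ≤ (B ^ 2) ^ 2 := by nlinarith
    rw [h2]; linarith
  obtain ⟨P, Pp, P1, P2, P3, P4⟩ : ∃ P : ℝ, 0 < P ∧ P ≤ 1 / (2 * c0) ∧ P ≤ k0 / (32 * c0 ^ 2) ∧
      P ≤ k0 * N0 / (16 * c0) ∧ P ≤ N0 :=
    ⟨min (min _ _) (min _ _), lt_min (lt_min (by positivity) (by positivity))
      (lt_min (by positivity) N0p), (min_le_left _ _).trans (min_le_left _ _),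
      (min_le_left _ _).trans (min_le_right _ _), (min_le_right _ _).trans (min_le_left _ _),
      (min_le_right _ _).trans (min_le_right _ _)⟩
  rw [le_div_iff₀ (by positivity)] at P1 P2 P3
  obtain ⟨R, hR'⟩ := exists_nat_gt (2 * T0 / P)
  have Rp : (0 : ℝ) < R := lt_trans (by positivity) hR'
  rw [div_lt_iff₀ Pp] at hR'
  have hab : T0 / R ≤ P / 2 := by rw [div_le_iff₀ Rp]; linarith
  obtain ⟨ε, εp, hε⟩ : ∃ ε : ℝ, 0 < ε ∧ ε * (R * m) ≤ s0 / 8 := by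
    refine ⟨s0 / 8 / (R * m + 1), by positivity, ?_⟩
    rw [div_mul_eq_mul_div, div_le_iff₀ (by positivity)]
    nlinarith
  obtain ⟨F, hF⟩ : ∃ F, F = c0 * (1 + n' * N0) / N0 + c0 * k0 * (1 + P) + ((z0 ^ 2)⁻¹) ^ 2 :=
    ⟨_, rfl⟩
  have Fp : 0 < F := by rw [hF]; positivity
  obtain ⟨u0, u0p, u1, u2, u3⟩ : ∃ u0 : ℝ, 0 < u0 ∧ u0 ≤ 1 ∧ u0 ≤ P ∧ u0 ≤ ε / 2 / F :=
    ⟨min 1 (min _ _), lt_min one_pos (lt_min Pp (by positivity)), min_le_left _ _,
      (min_le_right _ _).trans (min_le_left _ _), (min_le_right _ _).trans (min_le_right _ _)⟩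
  rw [le_div_iff₀ Fp, hF] at u3
  have eT : T0 / R * R = T0 := div_mul_cancel₀ _ Rp.ne'
  refine ⟨⟨k0, c0, _, _, √k0⁻¹, z0, (z0 ^ 2)⁻¹, T0 / R, u0, ε, P, k0p, c0p, by positivity,
    by positivity, z0p, zr, ?_, mul_inv_cancel₀ (by positivity), big _ _ (by positivity)
    (by positivity), big _ _ (by positivity) k0p, by positivity, u0p, u1, εp, ?_, by linarith,
    by linarith, by linarith, P4, u3⟩, R, rfl, rfl, ?_, ?_, ?_, hε, ?_⟩
  · rw [Real.sq_sqrt (inv_pos.2 k0p).le, inv_mul_cancel₀ k0p.ne']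
  · nlinarith
  · simp only [eT]
    rw [hk0]; field_simp
  · simp only
    rw [hc0]; field_simp; norm_num
  · simp only [eT]
    rw [hc0, hT0]; field_simp; norm_num
  · simp only
    nlinarith

end Ph0

open Ph0 in
theorem phase0 (hS : SlowStmt) : Phase0Stmt := by
  intro n' s0 K0 N0 R0 hn hs hK N0p hR
  obtain ⟨LA, LV, LAp, LVp, H⟩ := exists_cst hn hs hK N0p hR
  refine ⟨1 + LA + LV, by linarith, fun W Φ => ?_⟩
  obtain ⟨C, R, rfl, rfl, e1, e2, e3, e4, e5⟩ := H Φ (Fintype.card W.G)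
  have : ∀ π, ∃ j : W.G → ℝ, (W.pt W.st0 π).Fi W.χ K0 → (∀ g, 0 ≤ j g ∧
      (W.pt W.st0 π).Γ (W.χ g) (W.χ g) ≤ j g * W.χ g (W.ev π)) ∧ ∑ g, j g ≤ K0 := by
    intro π
    by_cases h : (W.pt W.st0 π).Fi W.χ K0
    · obtain ⟨j, hj⟩ := h
      rw [W.pt_p] at hj
      exact ⟨j, fun _ => hj⟩
    · exact ⟨fun _ => 0, fun h' => absurd h' h⟩
  choose j hj using this
  have hj1 := W.init.mono fun π h => (hj π h.2.2.1).1
  obtain ⟨⟨st, M⟩, ok, hJ⟩ := rounds (α := W.St × (W.G → W.Z → ℝ)) R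
    (fun t a => W.Ok a.1 a.2 ∧ ∀ᶠ π in W.L, J C W j t a.1 a.2 π)
    (fun t a g _ h => by
      obtain ⟨st', M', h'⟩ := one_step C hS hn N0p W j hj1 t g h.1 h.2
      exact ⟨(st', M'), h'⟩)
    (a0 := (W.st0, fun _ _ => 0)) ⟨World.ok_zero, W.init.mono fun π h => by
      have e : W.N (fun _ _ => 0) = fun _ => 0 := by funext z; simp [World.N]
      unfold J
      simp only [e, (W.pt W.st0 π).const_left 0 (W.A.const 0)]
      simpa [World.Mf] using h.1⟩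
  refine ⟨st, M, ok, ?_⟩
  filter_upwards [hJ, W.init] with π h1 h2
  unfold J at h1
  simp only [← Finset.mul_sum, h2.2.1, Finset.sum_const, Finset.card_univ, nsmul_eq_mul,
    mul_one] at h1
  have a1 : C.k0 * C.ab * (R * ∑ g, j π g) ≤ s0 / 16 := by
    have := mul_le_mul_of_nonneg_left (hj π h2.2.2.1).2
      (mul_nonneg C.k0p.le (mul_nonneg C.ab0 (Nat.cast_nonneg R)))
    linarith
  have x0 := Real.exp_pos (-W.N M (W.ev π) / N0)
  have a2 : 2 * C.k0 * (C.c0 * Real.exp (-W.N M (W.ev π) / N0)) * (C.ab * R) =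
      9 * R0 * Real.exp (-W.N M (W.ev π) / N0) := by rw [← e3]; ring
  have a3 : 0 ≤ C.c0 * Real.exp (-W.N M (W.ev π) / N0) / N0 * (W.pt st π).Γ (W.N M) (W.N M) :=
    mul_nonneg (div_nonneg (mul_pos C.c0p x0).le N0p.le) ((W.pt st π).nonneg ok.toMass.sm_N)
  have a4 : 4 * C.k0 * C.c0 * N0 * (1 - Real.exp (-W.N M (W.ev π) / N0)) ≤ s0 / 16 := by
    rw [e2]; nlinarith
  have a5 : 0 ≤ W.Mf (1 + C.LA + C.LV) M (W.ev π) :=
    Finset.sum_nonneg fun g _ => mul_nonneg (cut_nonneg _) (ok.toMass.nn g _)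
  have a6 : 0 ≤ 3 / 4 * C.V ^ 2 * W.Mf (1 + C.LA + C.LV) M (W.ev π) := by positivity
  have a7 : 0 ≤ 9 * R0 * Real.exp (-W.N M (W.ev π) / N0) := by positivity
  have key : 3 / 4 * s0 + 9 * R0 * Real.exp (-W.N M (W.ev π) / N0) +
      3 / 4 * C.V ^ 2 * W.Mf (1 + C.LA + C.LV) M (W.ev π) ≤ W.E st π := by linarith
  refine ⟨by linarith, ?_⟩
  rcases le_total (W.Mf (1 + C.LA + C.LV) M (W.ev π)) (N0 / 100) with h | h
  · refine Or.inr ⟨h, ?_⟩
    rcases le_total (2 * N0) (W.N M (W.ev π)) with h' | h'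
    · exact Or.inl h'
    · have b1 : Real.exp (-2) ≤ Real.exp (-W.N M (W.ev π) / N0) :=
        Real.exp_le_exp.2 (by rw [le_div_iff₀ N0p]; linarith)
      have b2 := mul_le_mul_of_nonneg_left (exp_two.trans b1) (show 0 ≤ 9 * R0 by positivity)
      exact Or.inr (by linarith)
  · have := mul_le_mul_of_nonneg_left h (show 0 ≤ 3 / 4 * C.V ^ 2 by positivity)
    exact Or.inl (by linarith)

end Crest.Agent.N222.A

end
end

-- ▼ part N222/A/World
section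

/-! # Row 222, part A: the geometric instance of `World` (helper72) -/

set_option autoImplicit false
set_option linter.dupNamespace false
open Filter Set Topology Function
open scoped ContDiff

noncomputable section

namespace Crest.Agent.N222.A

variable {n : ℕ} (B : Base n)

/-- smooth functions on `Z` -/
def Base.alg : Alg B.Z where
  Sm := SmA B.ch
  const _ _ := contDiffOn_const
  add hf hh p := (hf p).add (hh p)
  mul hf hh p := (hf p).mul (hh p)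
  comp _ hφ hU hf p := hφ.comp (hf p) fun _ _ => hU _

/-- points -/
abbrev Base.Pi : Type := {s : ℝ // s ≠ 0} × B.Z

/-- small scales, points of `Ω` -/
def Base.L : Filter B.Pi := comap Subtype.val (𝓝[≠] (0 : ℝ)) ×ˢ 𝓟 B.Ω

theorem Base.ev_iff {P : B.Pi → Prop} : (∀ᶠ π in B.L, P π) ↔
    ∀ᶠ s in 𝓝[≠] (0 : ℝ), ∀ hs : s ≠ 0, ∀ z ∈ B.Ω, P (⟨s, hs⟩, z) := by
  rw [Base.L, eventually_prod_principal_iff, eventually_comap]
  refine eventually_congr (Eventually.of_forall fun s => ⟨fun h hs => h ⟨s, hs⟩ rfl, ?_⟩)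
  rintro h ⟨s', hs⟩ rfl
  exact h hs

variable {B}

theorem Base.ev_lt {F : ℝ → B.Z → ℝ} (hF : SmJ B.ch univ F) {c : ℝ} (h0 : ∀ z ∈ B.Ω, F 0 z < c) :
    ∀ᶠ s in 𝓝[≠] (0 : ℝ), ∀ z ∈ B.Ω, F s z < c :=
  (B.Ω_cpt.eventually_forall_of_forall_eventually fun z hz =>
    (hF.continuous B.mem).continuousAt.eventually_lt continuousAt_const (h0 z hz)).filter_mono
    nhdsWithin_le_nhds

theorem Base.Su.ev {g : B.G} {f : B.Z → ℝ} (h : B.Su g f) {z : B.Z} (hz : z ∉ B.O g) :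
    f =ᶠ[𝓝 z] fun _ => 0 := by
  obtain ⟨K, hK, hV, hf⟩ := h
  have h1 : z ∈ {z | ∃ x, ∃ ξ ∈ K, B.t g x ξ = z}ᶜ := fun ⟨x, ξ, hξ, e⟩ => hz ⟨x, ξ, hV hξ, e⟩
  filter_upwards [(B.closed g K hK hV).isOpen_compl.mem_nhds h1] with y hy
  by_contra h0
  exact hy (hf y h0)

namespace GSt

variable (st : GSt B)

theorem D_ev {s : ℝ} (hs : s ≠ 0) {f : B.Z → ℝ} {z : B.Z} (h : f =ᶠ[𝓝 z] fun _ => 0) (c : st.ι) :
    (st.S s).D c f z = 0 := by
  obtain ⟨M, -, h2, -⟩ := st.imm s hs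
  rw [← h2, Imm.D_congr h, Imm.D_const]

theorem gam_ev {s : ℝ} (hs : s ≠ 0) {f : B.Z → ℝ} {z : B.Z} (h : f =ᶠ[𝓝 z] fun _ => 0)
    (k : B.Z → ℝ) : (st.S s).gam f k z = 0 := by
  simp [Pre.gam, st.D_ev hs h]

/-- the point calculus of a state -/
def pt (π : B.Pi) : Pt B.alg where
  p := π.2
  Γ f h := (st.S π.1.1).gam f h π.2
  symm _ _ := by simp [Pre.gam, mul_comm]
  add {f g h} hf hg _ := by
    obtain ⟨M, h1, h2, -⟩ := st.imm π.1.1 π.1.2
    have sm : ∀ {f : B.Z → ℝ}, SmA B.ch f → M.Sm f := fun hf => by rw [Imm.Sm, h1]; exact hf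
    simp only [← h2, Imm.gam_apply, Imm.D_add ((sm hf).diffAt _) ((sm hg).diffAt _), add_mul,
      Finset.sum_add_distrib]
  mul {f g h} hf hg _ := by
    obtain ⟨M, h1, h2, -⟩ := st.imm π.1.1 π.1.2
    have sm : ∀ {f : B.Z → ℝ}, SmA B.ch f → M.Sm f := fun hf => by rw [Imm.Sm, h1]; exact hf
    simp only [← h2, Imm.gam_apply, Imm.D_mul ((sm hf).diffAt _) ((sm hg).diffAt _),
      Finset.mul_sum, ← Finset.sum_add_distrib]
    exact Finset.sum_congr rfl fun _ _ => by ring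
  chain {f h φ c} hf _ _ hd := by
    obtain ⟨M, h1, h2, -⟩ := st.imm π.1.1 π.1.2
    have sm : ∀ {f : B.Z → ℝ}, SmA B.ch f → M.Sm f := fun hf => by rw [Imm.Sm, h1]; exact hf
    simp only [← h2, Imm.gam_apply, Imm.D_comp ((sm hf).diffAt _) hd, Finset.mul_sum, mul_assoc]
  nonneg _ := by
    simp only [Pre.gam, Finset.sum_apply, Pi.mul_apply]
    exact Finset.sum_nonneg fun _ _ => mul_self_nonneg _

theorem smJ_bud (l : List (B.Z → ℝ)) (hl : ∀ v ∈ l, SmA B.ch v) :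
    SmJ B.ch univ fun s z => (l.map fun v => (st.S s).gam v v z).sum := by
  induction l with
  | nil => simpa using SmJ.const 0
  | cons v l ih =>
    simp only [List.map_cons, List.sum_cons]
    have hv := SmJ.of_smA (V := (univ : Set ℝ)) (hl v List.mem_cons_self)
    exact (smJ_gam st.smD hv hv).add (ih fun w hw => hl w (List.mem_cons_of_mem _ hw))

theorem bud_zero {z : B.Z} (hz : z ∈ B.Ω) :
    (st.vs.map fun v => (st.S 0).gam v v z).sum ≤ n := by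
  obtain ⟨g, x, ξ, hξ, rfl⟩ := B.Ω_cover z hz
  obtain ⟨N', -, h2, h3⟩ := st.fib g ξ hξ
  refine (st.vs_le (fun v => (st.S 0).gam v v (B.t g x ξ)) fun f => ?_).trans (le_of_eq ?_)
  · simp only [Pre.gam, Finset.sum_apply, Pi.mul_apply]
    exact Finset.sum_nonneg fun _ _ => mul_self_nonneg _
  · rw [← N'.tr_P x]
    refine Finset.sum_congr rfl fun c _ => ?_
    have e : (fun y => (st.S 0).x c (B.t g y ξ)) = N'.pre.x c := funext fun y => (h2 c y).symm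
    have h4 := congrFun (N'.tan_D (N'.pre.x c) c) x
    simp only [Finset.sum_apply, Pi.mul_apply] at h4
    simp only [Pre.gam, Finset.sum_apply, Pi.mul_apply, h3 _ (st.smx c), e]
    refine Eq.trans (Finset.sum_congr rfl fun a _ => ?_) h4
    rw [N'.P_symm c a]; rfl

theorem budget : ∀ᶠ π in B.L, (st.pt π).bud st.vs ≤ n + 1 :=
  B.ev_iff.2 ((Base.ev_lt (st.smJ_bud st.vs st.vs_sm) (c := n + 1) fun _ hz =>
    (st.bud_zero hz).trans_lt (lt_add_one _)).mono fun _ h _ z hz => (h z hz).le)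

theorem step_gam {s : ℝ} (hs : s ≠ 0) (v f h : B.Z → ℝ) (z : B.Z) :
    (stepS (st.S s) v).gam f h z = (st.S s).gam f h z
      - (st.S s).gam v f z * (st.S s).gam v h z / (1 + (st.S s).gam v v z) := by
  obtain ⟨M, -, h2, -⟩ := st.imm s hs
  borelize B.Z
  have e : ∀ k, M.pre.dir (M.Xf v) k z = M.vv v z * M.pre.gam v k z := fun k => by
    simp [Pre.dir, Pre.gam, Imm.Xf_apply, Finset.mul_sum, mul_assoc]
  have h3 := M.gS_gam v f h z
  have h4 := M.vv_sq v z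
  have h5 := one_add_gam_pos M.pre v z
  rw [e, e] at h3
  rw [← h2]
  refine h3.trans ?_
  rw [sub_right_inj, eq_div_iff h5.ne']
  linear_combination (M.pre.gam v f z * M.pre.gam v h z) * h4

theorem dfc_ev {s : ℝ} (hs : s ≠ 0) {Q σ v : B.Z → ℝ} {u0 : ℝ} (hu : 0 < u0) {z : B.Z}
    (h : v =ᶠ[𝓝 z] fun _ => 0) (h0 : σ z = 0) : dfc (st.S s) (st.b s) Q σ v u0 z = 0 := by
  have hX : ∀ c, (st.S s).X v (vv (st.S s) v) c =ᶠ[𝓝 z] fun _ => 0 := fun c =>
    (eventually_eventually_nhds.2 h).mono fun y hy => by simp [Pre.X, st.D_ev hs hy]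
  have h1 : v z = 0 := h.self_of_nhds
  have h2 : u0 ^ 2 / 4 / (u0 ^ 2 / 4) = 1 := div_self (by positivity)
  simp [dfc, vv, beta, Pre.hb, Pre.dv, st.gam_ev hs h, st.D_ev hs (hX _), (hX _).self_of_nhds, h1,
    h0, h2]

end GSt

theorem gen_trivial (U a : ℝ) : gen U 1 0 0 a 0 = 0 := by simp [gen]

/-- one step, with the estimate for `E` -/
theorem geo_step (hG : GenStmt) (hS : SolStmt) (hN : NextStmt) (st : GSt B) (g : B.G)
    {Q σ a : B.Z → ℝ} {abar u0 ε : ℝ} (hQ : SmA B.ch Q) (hσ : SmA B.ch σ) (ha : SmA B.ch a)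
    (Q0 : ∀ z, 0 < Q z) (σ0 : ∀ z, 0 ≤ σ z ∧ σ z ≤ abar) (su : B.Su g σ) (hu : 0 < u0)
    (hε : 0 < ε) : ∃ (v : B.Z → ℝ) (st' : GSt B), SmA B.ch v ∧ B.Su g v ∧
      (∀ z, 0 ≤ v z ∧ (u0 + v z) ^ 2 ≤ u0 ^ 2 + 4 * abar) ∧ st'.vs = v :: st.vs ∧
      (∀ s ≠ 0, ∀ f h z, (st'.S s).gam f h z = (st.S s).gam f h z
        - (st.S s).gam v f z * (st.S s).gam v h z / (1 + (st.S s).gam v v z)) ∧
      (∀ s ≠ 0, ∀ z, z ∉ B.O g → (st.S s).Eb (st.b s) z ≤ (st'.S s).Eb (st'.b s) z) ∧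
      ∀ᶠ s in 𝓝[≠] (0 : ℝ), ∀ z ∈ B.Ω, (st.S s).Eb (st.b s) z
        + gen (u0 + v z) (√(1 + (st.S s).gam v v z)) (beta Q σ v u0 z)
          ((st.S s).gam v (beta Q σ v u0) z / √(1 + (st.S s).gam v v z)) (a z)
          ((st.S s).gam v a z / √(1 + (st.S s).gam v v z)) - ε ≤ (st'.S s).Eb (st'.b s) z := by
  obtain ⟨Ca, hCa⟩ := B.Ω_cpt.exists_bound_of_continuousOn
    (((SmJ.of_smA (V := (univ : Set ℝ)) ha).continuous B.mem).comp
      (Continuous.prodMk_right (0 : ℝ))).continuousOn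
  set C : ℝ := 2 / u0 + |Ca| * (1 + u0 ^ 2 + 4 * |abar|) + 1 with hC
  have C0 : 0 < C := by positivity
  set e : ℝ := min 1 (ε / C) with he
  have e0 : 0 < e := lt_min one_pos (by positivity)
  obtain ⟨v, hv, suv, hb, hd⟩ := hS n B st g Q σ abar u0 (e / 2) hQ hσ Q0 σ0 su hu (by positivity)
  have v0 : ∀ z, 0 ≤ v z := fun z => (hb z).1
  obtain ⟨st', hvs, h'⟩ := hN n B st Q σ a v u0 hQ hσ ha hv v0 hu
  have key : ∀ s ≠ 0, ∀ z, (st.S s).Eb (st.b s) z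
      + gen (u0 + v z) (√(1 + (st.S s).gam v v z)) (beta Q σ v u0 z)
        ((st.S s).gam v (beta Q σ v u0) z / √(1 + (st.S s).gam v v z)) (a z)
        ((st.S s).gam v a z / √(1 + (st.S s).gam v v z))
      - ((2 / u0 + |a z| * (u0 + v z)) * |dfc (st.S s) (st.b s) Q σ v u0 z|
        + dfc (st.S s) (st.b s) Q σ v u0 z ^ 2) ≤ (st'.S s).Eb (st'.b s) z := fun s hs z => by
    obtain ⟨M, h1, h2, h3⟩ := st.imm s hs
    have sm : ∀ {f : B.Z → ℝ}, SmA B.ch f → M.Sm f := fun hf => by rw [Imm.Sm, h1]; exact hf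
    have := (hG _ _ _ M (st.b s) Q σ a v u0 (fun c => sm ((st.smb c).slice (mem_univ s)))
      (h2 ▸ h3) (sm hQ) (sm hσ) (sm ha) (sm hv) v0 hu).2 z
    rw [(h' s z).2]
    rwa [h2] at this
  have hJ : SmJ B.ch univ fun s => dfc (st.S s) (st.b s) Q σ v u0 :=
    smJ_dfc st.smD (SmJ.of_smA hv) st.smb (SmJ.of_smA hQ) (SmJ.of_smA hσ) hu fun _ _ p => v0 p
  have h0 : ∀ z ∈ B.Ω, dfc (st.S 0) (st.b 0) Q σ v u0 z ^ 2 < e ^ 2 := fun z hz => by
    by_cases hO : z ∈ B.O g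
    · have := abs_le.1 (hd z hz hO)
      nlinarith
    · have h1 : Continuous fun s => dfc (st.S s) (st.b s) Q σ v u0 z :=
        (hJ.continuous B.mem).comp (Continuous.prodMk_left z)
      have h2 : (fun s => dfc (st.S s) (st.b s) Q σ v u0 z) =ᶠ[𝓝[≠] (0 : ℝ)] fun _ => 0 :=
        eventually_nhdsWithin_of_forall fun s hs =>
          st.dfc_ev hs hu (suv.ev hO) (su.ev hO).self_of_nhds
      have h3 : dfc (st.S 0) (st.b 0) Q σ v u0 z = 0 :=
        tendsto_nhds_unique (h1.continuousAt.tendsto.mono_left nhdsWithin_le_nhds)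
          (tendsto_const_nhds.congr' h2.symm)
      rw [h3]; nlinarith
  refine ⟨v, st', hv, suv, hb, hvs, fun s hs f h z => ?_, fun s hs z hO => ?_, ?_⟩
  · rw [(h' s z).1, st.step_gam hs]
  · have h1 := key s hs z
    have h2 : beta Q σ v u0 z = 0 := by
      have h2 : u0 ^ 2 / 4 / (u0 ^ 2 / 4) = 1 := div_self (by positivity)
      simp [beta, (suv.ev hO).self_of_nhds, (su.ev hO).self_of_nhds, h2]
    simpa [st.gam_ev hs (suv.ev hO), st.dfc_ev hs hu (suv.ev hO) (su.ev hO).self_of_nhds, h2,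
      gen_trivial] using h1
  · filter_upwards [Base.ev_lt (hJ.pow 2) h0, self_mem_nhdsWithin] with s h1 hs z hz
    have h2 := key s hs z
    have h3 : |dfc (st.S s) (st.b s) Q σ v u0 z| ≤ e := abs_le_of_sq_le_sq (h1 z hz).le e0.le
    have h4 : |a z| ≤ |Ca| := (hCa z hz).trans (le_abs_self _)
    have h5 : u0 + v z ≤ 1 + u0 ^ 2 + 4 * |abar| := by
      nlinarith [(hb z).2, le_abs_self abar, sq_nonneg (u0 + v z - 1)]
    have h6 : |a z| * (u0 + v z) ≤ |Ca| * (1 + u0 ^ 2 + 4 * |abar|) :=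
      mul_le_mul h4 h5 (by linarith [v0 z]) (abs_nonneg _)
    have h7 : (2 / u0 + |a z| * (u0 + v z)) * |dfc (st.S s) (st.b s) Q σ v u0 z| ≤ (C - 1) * e :=
      mul_le_mul (by linarith) h3 (abs_nonneg _) (by rw [hC]; simp only [add_sub_cancel_right]; positivity)
    have h8 : e ^ 2 ≤ e := by nlinarith [min_le_left 1 (ε / C)]
    have h9 : C * e ≤ ε := by
      rw [mul_comm, ← le_div_iff₀ C0]; exact min_le_right _ _
    nlinarith [h1 z hz]

theorem a_of (hB : BookStmt) (hG : GenStmt) (hS : SolStmt) (hN : NextStmt) : AStmt := by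
  intro n s0 K0 hs hK
  obtain ⟨ρ, I1, H⟩ := hB (n + 1) s0 K0 (by simp) hs hK
  refine ⟨ρ, I1, fun B st0 χ d δ hsm hin Λ hΛ => ?_⟩
  classical
  let W : World (n + 1) s0 K0 :=
    { Z := B.Z
      A := B.alg
      G := B.G
      Pi := B.Pi
      L := B.L
      ev := Prod.snd
      O := B.O
      Su := B.Su
      St := {x : GSt B × (B.Pi → ℝ) //
        (∀ s ≠ 0, ∀ f z, (x.1.S s).gam f f z ≤ (st0.S s).gam f f z) ∧
          ∀ᶠ π in B.L, x.2 π ≤ (x.1.S π.1.1).Eb (x.1.b π.1.1) π.2}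
      pt := fun x => x.1.1.pt
      pt_p := fun _ _ => rfl
      E := fun x => x.1.2
      vs := fun x => x.1.1.vs
      vs_sm := fun x => x.1.1.vs_sm
      su_of := by
        rintro g f h k ⟨K, hK, hV, hf⟩ ⟨K', hK', hV', hh⟩ hk
        refine ⟨K ∪ K', hK.union hK', union_subset hV hV', fun z hz => ?_⟩
        by_cases h1 : f z = 0
        · obtain ⟨x, ξ, hξ, e⟩ := hh z fun h2 => hz (hk z h1 h2)
          exact ⟨x, ξ, Or.inr hξ, e⟩
        · obtain ⟨x, ξ, hξ, e⟩ := hf z h1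
          exact ⟨x, ξ, Or.inl hξ, e⟩
      su_out := fun hf _ x π hπ => ⟨(hf.ev hπ).self_of_nhds, x.1.1.gam_ev π.1.2 (hf.ev hπ) _⟩
      budget := fun x => x.1.1.budget
      χ := χ
      d := d
      δ := δ
      χ_sm := fun g => (hsm g).1
      d_sm := fun g => (hsm g).2.1
      δ_sm := fun g => (hsm g).2.2.1
      χ_su := fun g => (hsm g).2.2.2.1
      χ_mem := fun g => (hsm g).2.2.2.2
      st0 := ⟨(st0, fun π => (st0.S π.1.1).Eb (st0.b π.1.1) π.2), fun _ _ _ _ => le_rfl,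
        Eventually.of_forall fun _ => le_rfl⟩
      init := B.ev_iff.2 (hin.mono fun _ h _ z hz => h z hz)
      oracle := by
        rintro ⟨⟨st, e⟩, hle, he⟩ g Q σ a abar u0 ε hQ hσ ha Q0 σ0 su hu hε
        obtain ⟨v, st', hv, suv, hb, hvs, hΓ, hE, hE'⟩ :=
          geo_step hG hS hN st g hQ hσ ha Q0 σ0 su hu hε
        refine ⟨v, ⟨(st', fun π => if π.2 ∈ B.O g then (st'.S π.1.1).Eb (st'.b π.1.1) π.2 else e π),
          fun s hs f z => ?_, he.mono fun π hπ => ?_⟩, hv, suv, hb, hvs,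
          fun π f h _ _ => hΓ π.1.1 π.1.2 f h π.2, ?_⟩
        · have h1 := one_add_gam_pos (st.S s) v z
          have h2 : 0 ≤ (st.S s).gam v f z * (st.S s).gam v f z / (1 + (st.S s).gam v v z) :=
            div_nonneg (mul_self_nonneg _) h1.le
          have h3 := hΓ s hs f f z
          have h4 := hle s hs f z
          dsimp only at h4 ⊢
          linarith
        · dsimp only at hπ ⊢
          split_ifs with h
          · exact le_rfl
          · exact hπ.trans (hE _ π.1.2 _ h)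
        · refine B.ev_iff.2 ?_
          filter_upwards [B.ev_iff.1 he, hE'] with s h1 h2 hs z hz
          refine ⟨fun h => if_neg h, fun h => ?_⟩
          refine le_trans ?_ (le_of_eq (if_pos h).symm)
          exact le_trans (sub_le_sub_right (add_le_add_left (h1 hs z hz) _) _) (h2 z hz) }
  obtain ⟨⟨⟨st, e⟩, hle, he⟩, P, hP, hE⟩ := H W Λ hΛ
  refine ⟨st, P, hP, fun s hs f _ z => hle s hs f z, ?_⟩
  filter_upwards [B.ev_iff.1 (he.and hE), self_mem_nhdsWithin] with s h hs z hz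
  obtain ⟨h0, h1, h2, I, h3, h4, h5⟩ := h hs z hz
  exact ⟨h1, h2, I, h3, h4, h5.trans h0⟩

end Crest.Agent.N222.A

end
end

-- ▼ part N222/A/Sol
section

/-! # Row 222, part A: the fibrewise solution on `Z` (helper90) -/

set_option autoImplicit false
set_option linter.dupNamespace false
set_option linter.unusedSectionVars false
open Filter Set Topology Function
open scoped ContDiff Manifold

noncomputable section

namespace Crest.Agent.N222.A

namespace Sol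

variable {d : ℕ} {ι X Y Λ : Type} [Fintype ι] [TopologicalSpace X] [TopologicalSpace Y]
  [NormedAddCommGroup Λ] [NormedSpace ℝ Λ]

/-- extension by zero of a family -/
theorem smJ_push [T2Space Y] {M : Imm d ι X} {N : Imm d ι Y} {e : OpenPartialHomeomorph X Y}
    (hx : ∀ p ∈ e.source, N.x (e p) = M.x p) {G : Λ → X → ℝ} (hG : SmJ M.ch univ G) {C : Set X}
    (hC : IsCompact C) (hCe : C ⊆ e.source) (h0 : ∀ ξ p, G ξ p ≠ 0 → p ∈ C) :
    SmJ N.ch univ fun ξ => push e (G ξ) := by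
  refine SmJ.of_charts fun y ξ _ => ?_
  by_cases hy : y ∈ e.target
  · have hc := IsChart.symm_trans hx (M.isChart (e.symm y))
    have hs : y ∈ (e.symm.trans (M.ch (e.symm y))).source := ⟨hy, M.mem _⟩
    refine ⟨_, hc, hs, ?_⟩
    have ht := (e.symm.trans (M.ch (e.symm y))).map_source hs
    refine ((hG (e.symm y)).contDiffAt (((M.ch _).open_target.prod isOpen_univ).mem_nhds
      ⟨ht.1, mem_univ _⟩)).congr_of_eventuallyEq ?_
    filter_upwards [(continuousAt_fst (p := (e.symm.trans (M.ch (e.symm y)) y, ξ))).eventually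
      ((e.symm.trans (M.ch (e.symm y))).open_target.mem_nhds ht)] with q hq
    exact push_apply (G q.2) hq.2
  · have hcl : IsClosed (e '' C) := (hC.image_of_continuousOn (e.continuousOn.mono hCe)).isClosed
    have hy' : y ∉ e '' C := fun ⟨p, hp, h⟩ => hy (h ▸ e.map_source (hCe hp))
    refine ⟨N.ch y, N.isChart y, N.mem y,
      (contDiffAt_const (c := (0 : ℝ))).congr_of_eventuallyEq ?_⟩
    have h1 := (N.ch y).continuousAt_symm ((N.ch y).map_source (N.mem y))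
    rw [ContinuousAt, (N.ch y).left_inv (N.mem y)] at h1
    filter_upwards [(continuousAt_fst (p := (N.ch y y, ξ))).eventually
      (h1.eventually (hcl.isOpen_compl.mem_nhds hy'))] with q hq
    by_contra h
    by_cases h2 : (N.ch y).symm q.1 ∈ e.target
    · rw [push, indicator_of_mem h2] at h
      exact hq ⟨_, h0 _ _ h, e.right_inv h2⟩
    · exact h (indicator_of_notMem h2 _)

/-- pull-back of a family with a cut-off -/
theorem smJ_pull {M : Imm d ι X} {N : Imm d ι Y} {e : OpenPartialHomeomorph X Y}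
    (hx : ∀ p ∈ e.source, N.x (e p) = M.x p) {v : Λ → Y → ℝ} (hv : SmJ N.ch univ v) {ζ : X → ℝ}
    (hζ : M.Sm ζ) (hs : tsupport ζ ⊆ e.source) : SmJ M.ch univ fun ξ p => ζ p * v ξ (e p) := by
  refine SmJ.of_charts fun p ξ _ => ⟨M.ch p, M.isChart p, M.mem p, ?_⟩
  by_cases hp : p ∈ e.source
  · have hc := IsChart.symm_trans hx (M.isChart p)
    have ht : M.ch p p ∈ (e.symm.trans (M.ch p)).target :=
      ⟨(M.ch p).map_source (M.mem p), by
        change (M.ch p).symm (M.ch p p) ∈ e.source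
        rwa [(M.ch p).left_inv (M.mem p)]⟩
    have h1 := (hv.chart isOpen_univ hc).contDiffAt (x := (M.ch p p, ξ))
      (((e.symm.trans (M.ch p)).open_target.prod isOpen_univ).mem_nhds ⟨ht, mem_univ _⟩)
    have h2 := (SmJ.of_smA (V := (univ : Set Λ)) hζ p).contDiffAt (x := (M.ch p p, ξ))
      (((M.ch p).open_target.prod isOpen_univ).mem_nhds ⟨ht.1, mem_univ _⟩)
    exact h2.mul h1
  · have h1 := symm_eventuallyEq (M.mem p)
      (notMem_tsupport_iff_eventuallyEq.1 fun h => hp (hs h))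
    refine (contDiffAt_const (c := (0 : ℝ))).congr_of_eventuallyEq ?_
    filter_upwards [(continuousAt_fst (p := (M.ch p p, ξ))).eventually h1] with q hq
    exact mul_eq_zero_of_left hq _

/-- a map which determines an immersion is an immersion -/
theorem isChart_of_comp {ι' : Type} [Fintype ι'] {x : X → E ι} {x' : X → E ι'}
    {e : OpenPartialHomeomorph X (E (Fin d))} (he : IsChart x e)
    (h' : ContDiffOn ℝ ∞ (x' ∘ e.symm) e.target) {L : E ι' → E ι} (hL : ContDiff ℝ ∞ L)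
    (h : ∀ p, L (x' p) = x p) : IsChart x' e := by
  refine ⟨h', fun z hz => ?_⟩
  have h2 : DifferentiableAt ℝ (x' ∘ e.symm) z :=
    (h'.contDiffAt (e.open_target.mem_nhds hz)).differentiableAt (by simp)
  have h3 := fderiv_comp z (hL.differentiable (by simp) _) h2
  have h4 : L ∘ (x' ∘ e.symm) = x ∘ e.symm := funext fun _ => h _
  have h5 := he.inj z hz
  rw [← h4, h3] at h5
  exact Injective.of_comp h5

/-- a cut-off in the parameter -/
theorem exists_rho {κ : Type} [Fintype κ] {K V : Set (κ → ℝ)} (hK : IsCompact K) (hV : IsOpen V)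
    (h : K ⊆ V) : ∃ ρ : (κ → ℝ) → ℝ, ContDiff ℝ ∞ ρ ∧ tsupport ρ ⊆ V ∧
      (∀ ξ, 0 ≤ ρ ξ ∧ ρ ξ ≤ 1) ∧ K ⊆ interior {ξ | ρ ξ = 1} := by
  obtain ⟨L, hL, hKL, hLU⟩ := exists_compact_between hK hV h
  obtain ⟨f, h1, h0, hf⟩ := exists_contMDiffMap_one_nhds_of_subset_interior (n := ⊤)
    𝓘(ℝ, κ → ℝ) hK.isClosed hKL
  have hs : tsupport f ⊆ L := closure_minimal (fun p hp => by_contra fun hp' => hp (h0 p hp'))
    hL.isClosed
  exact ⟨f, f.contMDiff.contDiff, hs.trans hLU, hf, subset_interior_iff_mem_nhdsSet.2 h1⟩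

variable [DecidableEq ι]

/-- transport of the defect -/
theorem dfc_transport {X' : Type} {M : Imm d ι X} {S : Pre (X' → ℝ) ι} {φ : X → X'} {x : X}
    {v Q σ : X' → ℝ} {w Q' σ' : X → ℝ} {b : ι → X' → ℝ} {b' : ι → X → ℝ} (u0 : ℝ)
    (hv : ∀ᶠ y in 𝓝 x, ∀ a, S.D a v (φ y) = M.pre.D a (fun y => v (φ y)) y)
    (hX : ∀ a, S.D a (S.X v (vv S v) a) (φ x) =
      M.pre.D a (fun y => S.X v (vv S v) a (φ y)) x)
    (hw : (fun y => v (φ y)) =ᶠ[𝓝 x] w) (hb : ∀ a, b a (φ x) = b' a x) (hQ : Q (φ x) = Q' x)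
    (hσ : σ (φ x) = σ' x) : dfc S b Q σ v u0 (φ x) = dfc M.pre b' Q' σ' w u0 x := by
  have h1 : ∀ᶠ y in 𝓝 x, ∀ a, S.D a v (φ y) = M.pre.D a w y := by
    filter_upwards [hv, hw.eventuallyEq_nhds] with y h1 h2 a
    rw [h1, Imm.D_congr h2]
  have h2 : ∀ᶠ y in 𝓝 x, S.gam v v (φ y) = M.pre.gam w w y := h1.mono fun y h => by
    simp only [Pre.gam, Finset.sum_apply, Pi.mul_apply, h]
  have h3 : ∀ a, (fun y => S.X v (vv S v) a (φ y)) =ᶠ[𝓝 x] M.pre.X w (vv M.pre w) a := fun a => by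
    filter_upwards [h1, h2] with y h h'
    simp only [Pre.X, Pi.mul_apply, vv, h, h']
  have h4 : S.hb b v (vv S v) (φ x) = M.pre.hb b' w (vv M.pre w) x := by
    simp only [Pre.hb, Pre.dv, Pi.add_apply, Finset.sum_apply, Pi.mul_apply, hX, hb,
      fun a => Imm.D_congr (M := M) (h3 a) a, fun a => (h3 a).self_of_nhds]
  have h5 : v (φ x) = w x := hw.self_of_nhds
  simp only [dfc, ww, beta, h4, h5, hQ, hσ]
  simp only [vv, h2.self_of_nhds]

theorem dfc_pad (M : Imm d ι X) (c : ℝ) (b : ι → X → ℝ) (Q σ w : X → ℝ) (u0 : ℝ) (x : X) :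
    dfc (M.pad c).pre (fun o => o.elim 0 b) Q σ w u0 x = dfc M.pre b Q σ w u0 x := by
  have h1 : vv (M.pad c).pre w = vv M.pre w := funext fun p => by simp only [vv, Imm.pad_gam]
  have h2 : (M.pad c).pre.hb (fun o => o.elim 0 b) w (vv M.pre w) = M.pre.hb b w (vv M.pre w) := by
    simp only [Pre.hb, Pre.dv, Pre.X, Fintype.sum_option, Imm.pad_D_none, Imm.pad_D_some,
      Option.elim_none, Option.elim_some, mul_zero, zero_add]
  simp only [dfc, ww, h1, h2, Imm.pad_gam]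

theorem dfc_zero (M : Imm d ι X) (b : ι → X → ℝ) (Q : X → ℝ) {σ : X → ℝ} {u0 : ℝ} (hu : 0 < u0)
    {x : X} (h : σ x = 0) : dfc M.pre b Q σ (fun _ => 0) u0 x = 0 := by
  have h1 : ∀ a, M.pre.D a (fun _ => 0) = fun _ => 0 := fun a => funext fun p => Imm.D_const 0 a p
  have h2 : ∀ a, M.pre.X (fun _ => 0) (vv M.pre fun _ => 0) a = fun _ => 0 := fun a =>
    funext fun p => by simp only [Pre.X, Pi.mul_apply, h1, mul_zero]
  have h3 : M.pre.gam (fun _ => 0) (fun _ => 0) x = 0 := by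
    simp only [Pre.gam, Finset.sum_apply, Pi.mul_apply, h1, mul_zero, Finset.sum_const_zero]
  have h4 : M.pre.hb b (fun _ => 0) (vv M.pre fun _ => 0) x = 0 := by
    simp only [Pre.hb, Pre.dv, Pi.add_apply, Finset.sum_apply, Pi.mul_apply, h2, h1, zero_mul,
      Finset.sum_const_zero, add_zero]
  have h5 : u0 ^ 2 / 4 / (u0 ^ 2 / 4) = 1 := div_self (by positivity)
  simp only [dfc, h4, beta, h]
  simp [vv, h3, h5]

end Sol

open Sol in
theorem sol (hF : FamStmt) (hD : DblStmt) : SolStmt := by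
  intro n B st g Q σ abar u0 ε hQ hσ Q0 σ0 hsu hu hε
  by_cases ha : abar < 0
  · have h : ∀ _ : B.Z, False := fun z => by linarith [σ0 z]
    exact ⟨fun _ => 0, fun _ => contDiffOn_const, ⟨∅, isCompact_empty, empty_subset _,
      fun z => (h z).elim⟩, fun z => (h z).elim, fun z => (h z).elim⟩
  replace ha : 0 ≤ abar := not_lt.1 ha
  obtain ⟨K, hK, hKV, hσK⟩ := hsu
  obtain ⟨D, hDc, hΩD⟩ := B.Ω_loc g
  borelize B.T
  obtain ⟨Y, _, _, _, _, _, _, N0, e, c, hDe, hx⟩ := hD n B.ιT B.T B.N D hDc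
  have hx' : ∀ p ∈ e.source, N0.x (e p) = (B.N.pad c).x p := hx
  obtain ⟨ζ, hζ, hζe, ζ01, hζ1⟩ := B.N.exists_bump hDc e.open_source hDe
  have hDU : D ⊆ interior {p | ζ p = 1} := subset_interior_iff_mem_nhdsSet.2 hζ1
  have hUe : interior {p | ζ p = 1} ⊆ e.source := fun p hp =>
    hζe (subset_tsupport _ (by rw [mem_support, interior_subset hp]; exact one_ne_zero))
  obtain ⟨ζ2, hζ2, hζ2U, ζ201, hζ21⟩ := B.N.exists_bump hDc isOpen_interior hDU
  obtain ⟨ρ, hρ, hρV, ρ01, hKρ⟩ := exists_rho hK (B.V_open g) hKV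
  have ρV : ∀ ξ, ρ ξ ≠ 0 → ξ ∈ B.V g := fun ξ h => hρV (subset_tsupport _ h)
  have hV1 : interior {ξ | ρ ξ = 1} ⊆ B.V g := fun ξ h =>
    ρV ξ (by rw [interior_subset h]; exact one_ne_zero)
  -- the transplantation of functions on `Z` to the double
  obtain ⟨hat, hhat⟩ : ∃ hat : (B.Z → ℝ) → (B.κ → ℝ) → Y → ℝ,
      ∀ f ξ, hat f ξ = push e fun p => ρ ξ * (ζ p * f (B.t g p ξ)) := ⟨_, fun _ _ => rfl⟩
  have hat_sm : ∀ f, SmA B.ch f → SmJ N0.ch univ (hat f) := fun f hf => by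
    have h1 := ((SmJ.of_smA hζ.sm).mul (B.sm_res g f hf)).cutoff (B.V_open g) hρ hρV
    rw [funext (hhat f)]
    exact smJ_push (M := B.N.pad c) hx' h1 hζ.cs hζe fun ξ p h =>
      subset_tsupport _ (left_ne_zero_of_mul (right_ne_zero_of_mul h))
  have hat_in : ∀ f ξ, ∀ p ∈ e.source, hat f ξ (e p) = ρ ξ * (ζ p * f (B.t g p ξ)) :=
    fun f ξ p hp => by rw [hhat, push_apply _ hp]
  have hat_out : ∀ f ξ, ∀ y ∉ e.target, hat f ξ y = 0 := fun f ξ y hy => by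
    rw [hhat]; exact indicator_of_notMem hy _
  have hat_one : ∀ f, ∀ ξ ∈ interior {ξ | ρ ξ = 1}, ∀ p ∈ interior {p | ζ p = 1},
      hat f ξ (e p) = f (B.t g p ξ) := fun f ξ hξ p hp => by
    rw [hat_in f ξ p (hUe hp), interior_subset hξ, interior_subset hp, one_mul, one_mul]
  have cases : ∀ y, y ∉ e.target ∨ ∃ p ∈ e.source, e p = y := fun y =>
    (em' _).imp id fun h => ⟨_, e.map_target h, e.right_inv h⟩
  -- the family of immersions
  obtain ⟨xx, hxx⟩ : ∃ xx : (B.κ → ℝ) → Y → E (Option st.ι), ∀ ξ y, xx ξ y = up (N0.x y none)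
      (WithLp.toLp 2 fun k => hat ((st.S 0).x k) ξ y + (1 - hat (fun _ => 1) ξ y) *
        ∑ a, if k = st.j a then N0.x y (some a) else 0) := ⟨_, fun _ _ => rfl⟩
  have xx_sm : SmJ N0.ch univ xx := by
    refine SmJ.euclid.2 fun k => ?_
    simp only [hxx]
    cases k with
    | none => exact SmJ.of_smA (N0.sm_coord none)
    | some k =>
      refine (hat_sm _ (st.smx k)).add (((SmJ.const 1).sub
        (hat_sm _ fun _ => contDiffOn_const)).mul (SmJ.sum Finset.univ fun a _ => ?_))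
      by_cases h : k = st.j a
      · simpa only [if_pos h] using SmJ.of_smA (N0.sm_coord (some a))
      · simpa only [if_neg h] using SmJ.const 0
  have xx_j : ∀ ξ y, (WithLp.toLp 2 fun o : Option B.ιT => xx ξ y (o.map st.j)) = N0.x y := by
    intro ξ y
    ext o
    rw [hxx]
    cases o with
    | none => rfl
    | some a =>
      change hat ((st.S 0).x (st.j a)) ξ y + (1 - hat (fun _ => 1) ξ y) *
        (∑ a', if st.j a = st.j a' then N0.x y (some a') else 0) = N0.x y (some a)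
      simp only [st.j_inj.eq_iff, Finset.sum_ite_eq, Finset.mem_univ, if_true]
      rcases cases y with h | ⟨p, hp, rfl⟩
      · rw [hat_out _ _ _ h, hat_out _ _ _ h]; ring
      · rw [hat_in _ _ _ hp, hat_in _ _ _ hp]
        by_cases h0 : ρ ξ = 0
        · rw [h0]; ring
        · rw [st.x_j g a p ξ (ρV ξ h0), hx p hp]
          change _ + _ * B.N.x p a = B.N.x p a
          ring
  have hL : ContDiff ℝ ∞ fun w : E (Option st.ι) =>
      (WithLp.toLp 2 fun o : Option B.ιT => w (o.map st.j) : E (Option B.ιT)) :=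
    contDiff_euclidean.2 fun o => (contDiff_euclidean.1 contDiff_id) (o.map st.j)
  let N : (B.κ → ℝ) → Imm n (Option st.ι) Y := fun ξ =>
    { x := xx ξ
      ch := N0.ch
      mem := N0.mem
      isChart := fun y => isChart_of_comp (N0.isChart y) (xx_sm.slice (mem_univ ξ) y) hL (xx_j ξ) }
  have hb0 : ∀ k, SmA B.ch (st.b 0 k) := fun k => (st.smb k).slice (mem_univ 0)
  obtain ⟨v', K', hv', hK', hK'V, hv'K, hv'0, hdfc⟩ := hF n (Option st.ι) B.κ Y N0.ch N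
    (fun ξ o => o.elim 0 fun k => hat (st.b 0 k) ξ) (fun ξ y => 1 + hat (fun z => Q z - 1) ξ y)
    (hat σ) abar u0 ε K (interior {ξ | ρ ξ = 1}) (fun _ => rfl) xx_sm
    (fun o => by
      cases o with
      | none => exact SmJ.const 0
      | some k => exact hat_sm _ (hb0 k))
    ((SmJ.const 1).add (hat_sm _ fun p => (hQ p).sub contDiffOn_const)) (hat_sm _ hσ)
    (fun ξ y => by
      rcases cases y with h | ⟨p, hp, rfl⟩
      · rw [hat_out _ _ _ h]; norm_num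
      · rw [hat_in _ _ _ hp]
        have h1 := mul_nonneg (ρ01 ξ).1 (ζ01 p).1
        have h2 := mul_le_one₀ (ρ01 ξ).2 (ζ01 p).1 (ζ01 p).2
        have h3 := Q0 (B.t g p ξ)
        rcases h1.eq_or_lt with h4 | h4
        · rw [← mul_assoc, ← h4]; norm_num
        · nlinarith [mul_pos h4 h3])
    (fun ξ y => by
      rcases cases y with h | ⟨p, hp, rfl⟩
      · rw [hat_out _ _ _ h]; exact ⟨le_rfl, ha⟩
      · rw [hat_in _ _ _ hp, ← mul_assoc]
        have h1 := mul_nonneg (ρ01 ξ).1 (ζ01 p).1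
        have h2 := mul_le_one₀ (ρ01 ξ).2 (ζ01 p).1 (ζ01 p).2
        exact ⟨mul_nonneg h1 (σ0 _).1, (mul_le_of_le_one_left (σ0 _).1 h2).trans (σ0 _).2⟩)
    hu hε hK isOpen_interior hKρ
    (fun ξ y h => by
      rcases cases y with h1 | ⟨p, hp, rfl⟩
      · exact (h (hat_out _ _ _ h1)).elim
      · rw [hat_in _ _ _ hp] at h
        obtain ⟨x, ξ', h2, h3⟩ := hσK _ (right_ne_zero_of_mul (right_ne_zero_of_mul h))
        rwa [← B.inj g x p ξ' (hKV h2) ξ (ρV ξ (left_ne_zero_of_mul h)) h3])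
  obtain ⟨v, hv, hvt, hv0⟩ := B.sm_ext g (fun ξ p => ζ2 p * v' ξ (e p)) K'
    (smJ_pull (M := B.N.pad c) hx' hv' hζ2.sm (hζ2U.trans hUe)) hK' (hK'V.trans hV1)
    fun ξ p h => hv'K ξ _ (right_ne_zero_of_mul h)
  refine ⟨v, hv, ⟨K', hK', hK'V.trans hV1, fun z hz => ?_⟩, fun z => ?_, fun z hz hO => ?_⟩
  · obtain ⟨x, ξ, hξ, rfl⟩ := (hv0 z).resolve_right hz
    rw [hvt x ξ hξ] at hz
    exact ⟨x, ξ, hv'K ξ _ (right_ne_zero_of_mul hz), rfl⟩
  · rcases hv0 z with ⟨x, ξ, hξ, rfl⟩ | h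
    · rw [hvt x ξ hξ]
      have h1 := mul_nonneg (ζ201 x).1 (hv'0 ξ (e x)).1
      have h2 := mul_le_of_le_one_left (hv'0 ξ (e x)).1 (ζ201 x).2
      exact ⟨h1, (pow_le_pow_left₀ (by linarith) (by linarith) 2).trans (hv'0 ξ (e x)).2⟩
    · rw [h]; exact ⟨le_rfl, by linarith⟩
  · obtain ⟨x, ξ, hξ, rfl⟩ := hO
    have hxD := hΩD x ξ hξ hz
    obtain ⟨N', hch, hN', hfib⟩ := st.fib g ξ hξ
    have hX : ∀ a, SmA B.ch ((st.S 0).X v (vv (st.S 0) v) a) := fun a =>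
      (smJ_X st.smD (SmJ.of_smA hv) a).slice (mem_univ 0)
    rw [dfc_transport (M := N') (φ := fun y => B.t g y ξ) (w := fun y => ζ2 y * v' ξ (e y))
      (b' := fun a y => st.b 0 a (B.t g y ξ)) (Q' := fun y => Q (B.t g y ξ))
      (σ' := fun y => σ (B.t g y ξ)) u0 (Eventually.of_forall fun y a => hfib v hv a y)
      (fun a => hfib _ (hX a) a x) (Eventually.of_forall fun y => hvt y ξ hξ) (fun _ => rfl) rfl
      rfl]
    by_cases h1 : ξ ∈ interior {ξ | ρ ξ = 1}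
    · have hloc : ∀ y ∈ interior {p | ζ p = 1}, Loc (N'.pad c) (N ξ) e y := fun y hy => by
        filter_upwards [isOpen_interior.mem_nhds hy] with q hq
        refine ⟨e.continuousAt (hUe hq), ?_⟩
        change up c (N'.x q) = xx ξ (e q)
        rw [hxx, hx q (hUe hq)]
        congr 1
        ext k
        simp only [hat_one _ ξ h1 q hq, sub_self, zero_mul, add_zero, hN']
      rw [← dfc_pad N' c, ← dfc_transport (S := (N ξ).pre) (φ := e) (v := v' ξ)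
        (b := fun o => o.elim 0 fun k => hat (st.b 0 k) ξ)
        (Q := fun y => 1 + hat (fun z => Q z - 1) ξ y) (σ := hat σ ξ) u0 ?_
        (fun a => ((hloc x (hDU hxD)).D_iso _ a).symm) ?_ (fun o => ?_) ?_
        (hat_one _ ξ h1 x (hDU hxD))]
      · exact hdfc ξ (e x)
      · filter_upwards [isOpen_interior.mem_nhds (hDU hxD)] with y hy a
        exact ((hloc y hy).D_iso _ a).symm
      · filter_upwards [eventually_nhdsSet_iff_forall.1 hζ21 x hxD] with y hy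
        rw [hy, one_mul]
      · rw [hat_one _ ξ h1 x (hDU hxD)]; ring
      · cases o with
        | none => rfl
        | some k => exact hat_one _ ξ h1 x (hDU hxD)
    · have h2 : (fun y => ζ2 y * v' ξ (e y)) = fun _ => 0 := funext fun y =>
        mul_eq_zero_of_right _ (by_contra fun h => h1 (hK'V (hv'K ξ _ h)))
      rw [h2, dfc_zero N' _ _ hu, abs_zero]
      · exact hε.le
      · by_contra h
        obtain ⟨x', ξ', h3, h4⟩ := hσK _ h
        exact h1 (B.inj g x' x ξ' (hKV h3) ξ hξ h4 ▸ hKρ h3)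

end Crest.Agent.N222.A

end
end

-- ▼ part N222/A/Fam

/-! # Row 222, part A: patching exact solutions in the parameter (helper72) -/

set_option autoImplicit false
set_option linter.dupNamespace false
set_option linter.unusedSectionVars false
open Filter Set Topology Function Metric
open scoped ContDiff Manifold

noncomputable section

namespace Crest.Agent.N222.A

variable {d : ℕ} {ι Y : Type} [Fintype ι] [DecidableEq ι] [TopologicalSpace Y]

/-- second order jets -/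
abbrev Jet (ι : Type) : Type := ℝ × (ι → ℝ) × (ι → ι → ℝ)

/-- the jet of a function -/
def jet (M : Imm d ι Y) (w : Y → ℝ) (p : Y) : Jet ι :=
  (w p, fun a => M.pre.D a w p, fun a c => M.pre.D a (M.pre.D c w) p)

/-- `W` on jets -/
def jw (j : Jet ι) : ℝ := √(1 + ∑ a, j.2.1 a * j.2.1 a)

/-- the defect on jets -/
def Psi' (u0 : ℝ) (c : (ι → ℝ) × ℝ × ℝ) (j : Jet ι) : ℝ :=
  jw j * (∑ a, ((jw j)⁻¹ * j.2.2 a a - (jw j)⁻¹ ^ 3 * (∑ e, j.2.1 e * j.2.2 a e) * j.2.1 a)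
    + ∑ a, (jw j)⁻¹ * j.2.1 a * c.1 a + (1 - (jw j)⁻¹ ^ 2) / (u0 + |j.1|)
    - c.2.1 * (1 - (c.2.2 + u0 ^ 2 / 4) / ((u0 + |j.1|) ^ 2 / 4)) * (u0 + |j.1|) / 2)

theorem jw_pos (j : Jet ι) : 0 < jw j :=
  Real.sqrt_pos.2 (add_pos_of_pos_of_nonneg one_pos
    (Finset.sum_nonneg fun _ _ => mul_self_nonneg _))

theorem continuous_jw : Continuous (jw : Jet ι → ℝ) := by unfold jw; fun_prop

theorem continuous_Psi {u0 : ℝ} (hu : 0 < u0) :
    Continuous fun q : ((ι → ℝ) × ℝ × ℝ) × Jet ι => Psi' u0 q.1 q.2 := by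
  have h1 : Continuous fun q : ((ι → ℝ) × ℝ × ℝ) × Jet ι => jw q.2 :=
    continuous_jw.comp continuous_snd
  have h2 : Continuous fun q : ((ι → ℝ) × ℝ × ℝ) × Jet ι => (jw q.2)⁻¹ :=
    h1.inv₀ fun q => (jw_pos _).ne'
  have h3 : Continuous fun q : ((ι → ℝ) × ℝ × ℝ) × Jet ι => u0 + |q.2.1| := by fun_prop
  unfold Psi'
  refine h1.mul ((((continuous_finsetSum _ fun a _ => (h2.mul (by fun_prop)).sub
    (((h2.pow 3).mul (by fun_prop)).mul (by fun_prop))).add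
    (continuous_finsetSum _ fun a _ => (h2.mul (by fun_prop)).mul (by fun_prop))).add
    ((continuous_const.sub (h2.pow 2)).div h3 fun q => by positivity)).sub
    ((((by fun_prop : Continuous fun q : ((ι → ℝ) × ℝ × ℝ) × Jet ι => q.1.2.1).mul
      (continuous_const.sub ((by fun_prop : Continuous fun q : ((ι → ℝ) × ℝ × ℝ) × Jet ι =>
        q.1.2.2 + u0 ^ 2 / 4).div ((h3.pow 2).div_const 4) fun q =>
          (div_pos (pow_pos (add_pos_of_pos_of_nonneg hu (abs_nonneg _)) 2) four_pos).ne'))).mul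
      h3).div_const 2))

theorem dfc_eq (M : Imm d ι Y) (b : ι → Y → ℝ) (Q σ : Y → ℝ) {w : Y → ℝ} (hw : M.Sm w) (u0 : ℝ)
    {p : Y} (h0 : 0 ≤ w p) :
    dfc M.pre b Q σ w u0 p = Psi' u0 (fun a => b a p, Q p, σ p) (jet M w p) := by
  have hg : M.pre.gam w w = fun q => ∑ e, M.pre.D e w q * M.pre.D e w q :=
    funext fun q => Imm.gam_apply _ _ _
  have sg : M.Sm (M.pre.gam w w) := by
    rw [hg]; exact Imm.sm_sum _ fun e _ => (hw.D e).mul (hw.D e)
  have e1 : ww M.pre w p = jw (jet M w p) := by simp [ww, jw, jet, hg]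
  have e2 : vv M.pre w p = (jw (jet M w p))⁻¹ := by rw [← e1]; rfl
  have hp := one_add_gam_pos M.pre w p
  have hs : √(1 + M.pre.gam w w p) ≠ 0 := (Real.sqrt_pos.2 hp).ne'
  have hd : HasDerivAt (fun t => (√(1 + t))⁻¹) (-(vv M.pre w p ^ 3) / 2) (M.pre.gam w w p) := by
    refine ((((hasDerivAt_id _).const_add 1).sqrt hp.ne').inv hs).congr_deriv ?_
    simp only [vv, id]
    field_simp
  have e3 : ∀ a, M.pre.D a (vv M.pre w) p =
      -(vv M.pre w p ^ 3) * ∑ e, M.pre.D e w p * M.pre.D a (M.pre.D e w) p := fun a => by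
    have h1 := Imm.D_comp (sg.diffAt p) hd a
    have h2 : M.pre.D a (M.pre.gam w w) p =
        2 * ∑ e, M.pre.D e w p * M.pre.D a (M.pre.D e w) p := by
      rw [hg, Imm.D_sum _ fun e _ => ((hw.D e).mul (hw.D e)).diffAt p, Finset.mul_sum]
      refine Finset.sum_congr rfl fun e _ => ?_
      rw [Imm.D_mul ((hw.D e).diffAt p) ((hw.D e).diffAt p)]; ring
    rw [h2] at h1
    exact h1.trans (by ring)
  have e4 : ∀ a, M.pre.D a (M.pre.X w (vv M.pre w) a) p = vv M.pre w p * M.pre.D a (M.pre.D a w) p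
      + M.pre.D a (vv M.pre w) p * M.pre.D a w p := fun a =>
    Imm.D_mul (hw.vv.diffAt p) ((hw.D a).diffAt p) a
  simp only [dfc, Psi', Pre.hb, Pre.dv, Pi.add_apply, Finset.sum_apply, e4, e3]
  simp only [e1, e2, beta, Pre.X, Pi.mul_apply]
  simp only [jet, abs_of_nonneg h0, sub_eq_add_neg, neg_mul]

theorem jet_sum (M : Imm d ι Y) {J : Type} (s : Finset J) (l : J → ℝ) {u : J → Y → ℝ}
    (hu : ∀ j, M.Sm (u j)) (p : Y) :
    jet M (fun q => ∑ j ∈ s, l j * u j q) p = ∑ j ∈ s, l j • jet M (u j) p := by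
  have key : ∀ {u : J → Y → ℝ}, (∀ j, M.Sm (u j)) → ∀ a,
      M.pre.D a (fun q => ∑ j ∈ s, l j * u j q) = fun q => ∑ j ∈ s, l j * M.pre.D a (u j) q :=
    fun hu a => funext fun q => by
      rw [Imm.D_sum _ fun j _ => ((Imm.sm_const _).mul (hu j)).diffAt q]
      exact Finset.sum_congr rfl fun j _ => Imm.D_const_mul _ ((hu j).diffAt q) a
  refine Prod.ext ?_ (Prod.ext (funext fun a => ?_) (funext fun a => funext fun c => ?_))
  · simp [jet, Prod.fst_sum]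
  · simp [jet, Prod.fst_sum, Prod.snd_sum, key hu]
  · simp [jet, Prod.snd_sum, key hu, key fun j => (hu j).D c]

theorem jet_zero (M : Imm d ι Y) {w : Y → ℝ} (h : ∀ p, w p = 0) (p : Y) : jet M w p = 0 := by
  have e : w = fun _ => 0 := funext h
  have e2 : ∀ c, M.pre.D c (fun _ => (0 : ℝ)) = fun _ => 0 := fun c =>
    funext fun q => Imm.D_const 0 c q
  simp only [jet, e, e2]; rfl

section Cont

variable {Λ F : Type} [NormedAddCommGroup Λ] [NormedSpace ℝ Λ] [NormedAddCommGroup F]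
  [NormedSpace ℝ F]

theorem contDiffAt_fderiv_fst {f : E (Fin d) × Λ → F} {q : E (Fin d) × Λ}
    (hf : ContDiffAt ℝ ∞ f q) :
    ContDiffAt ℝ ∞ (fun r : E (Fin d) × Λ => fderiv ℝ (fun z => f (z, r.2)) r.1) q := by
  have h2 : ContDiffAt ℝ ∞ (uncurry fun (r : E (Fin d) × Λ) (z : E (Fin d)) => f (z, r.2))
      (q, q.1) :=
    ContDiffAt.comp (f := fun r : (E (Fin d) × Λ) × E (Fin d) => (r.2, r.1.2)) (q, q.1) hf
      (contDiffAt_snd.prodMk contDiffAt_fst.snd)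
  exact ContDiffAt.fderiv h2 contDiffAt_fst (by simp)

theorem continuous_jet {ch : Y → OpenPartialHomeomorph Y (E (Fin d))} {N : Λ → Imm d ι Y}
    (hN : ∀ ξ, (N ξ).ch = ch) (hx : SmJ ch univ fun ξ => (N ξ).x) {u : Λ → Y → ℝ}
    (hu : ∀ p, J.CJ (ch p).target fun ξ => u ξ ∘ (ch p).symm) :
    Continuous fun q : (Λ × Λ) × Y => jet (N q.1.1) (u q.1.2) q.2 := by
  refine continuous_iff_continuousAt.2 fun q0 => ?_
  set e := ch q0.2 with he
  have hc : ∀ ξ, IsChart (N ξ).x e := fun ξ => by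
    have := (N ξ).isChart q0.2; rwa [hN] at this
  have hm : q0.2 ∈ e.source := by have := (N q0.1.1).mem q0.2; rwa [hN] at this
  set lam : ι → E (Fin d) × Λ → E (Fin d) := fun a r =>
    ContinuousLinearMap.adjoint (Lam (fderiv ℝ ((N r.2).x ∘ e.symm) r.1)) (ee a) with hlam
  have sl : ∀ a ξ, ∀ z ∈ e.target, ContDiffAt ℝ ∞ (lam a) (z, ξ) := fun a ξ z hz => by
    have h2 := (hx.fderiv_fst isOpen_univ q0.2).contDiffAt (x := (z, ξ))
      ((e.open_target.prod isOpen_univ).mem_nhds ⟨hz, mem_univ _⟩)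
    have h3 := ContDiffAt.comp (f := fun q : E (Fin d) × Λ =>
      fderiv ℝ ((N q.2).x ∘ e.symm) q.1) (z, ξ) (contDiffAt_Lam ((hc ξ).inj _ hz)) h2
    exact (ContDiffAt.comp (z, ξ) (contDiff_adjoint (κ := Fin d) (ι := ι)).contDiffAt h3).clm_apply
      contDiffAt_const
  have hD : ∀ ξ a (f : Y → ℝ), ∀ p ∈ e.source,
      (N ξ).pre.D a f p = fderiv ℝ (f ∘ e.symm) (e p) (lam a (e p, ξ)) := fun ξ a f p hp =>
    congrArg (fun T : E ι →L[ℝ] ℝ => T (ee a)) (Imm.td_chart f (hc ξ) hp)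
  have hDD : ∀ ξ ξ' a c, ∀ p ∈ e.source, (N ξ).pre.D a ((N ξ).pre.D c (u ξ')) p =
      iteratedFDeriv ℝ 2 (u ξ' ∘ e.symm) (e p) ![lam a (e p, ξ), lam c (e p, ξ)]
        + iteratedFDeriv ℝ 1 (u ξ' ∘ e.symm) (e p)
          ![fderiv ℝ (fun z => lam c (z, ξ)) (e p) (lam a (e p, ξ))] := fun ξ ξ' a c p hp => by
    have hz := e.map_source hp
    have h1 : (N ξ).pre.D c (u ξ') ∘ e.symm =ᶠ[𝓝 (e p)]
        fun z => fderiv ℝ (u ξ' ∘ e.symm) z (lam c (z, ξ)) := by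
      filter_upwards [e.open_target.mem_nhds hz] with z hz
      rw [comp_apply, hD ξ c _ _ (e.map_target hz), e.right_inv hz]
    have h2 : DifferentiableAt ℝ (fderiv ℝ (u ξ' ∘ e.symm)) (e p) :=
      ((((hu q0.2).1 ξ').contDiffAt (e.open_target.mem_nhds hz)).fderiv_right (m := 1)
        (by norm_cast)).differentiableAt (by simp)
    have h3 : DifferentiableAt ℝ (fun z => lam c (z, ξ)) (e p) :=
      (ContDiffAt.comp (f := fun z => (z, ξ)) (e p) (sl c ξ _ hz)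
        (contDiffAt_id.prodMk contDiffAt_const)).differentiableAt (by simp)
    rw [hD ξ a _ p hp, h1.fderiv_eq, fderiv_clm_apply h2 h3, iteratedFDeriv_two_apply,
      iteratedFDeriv_one_apply]
    simp [add_comm]
  have ce : ContinuousAt (fun q : (Λ × Λ) × Y => e q.2) q0 :=
    ContinuousAt.comp (f := Prod.snd) (e.continuousAt hm) continuousAt_snd
  have cu : ∀ k, ContinuousAt
      (fun q : (Λ × Λ) × Y => iteratedFDeriv ℝ k (u q.1.2 ∘ e.symm) (e q.2)) q0 := fun k =>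
    ContinuousAt.comp (f := fun q : (Λ × Λ) × Y => (q.1.2, e q.2))
      (((hu q0.2).2 k).continuousAt ((isOpen_univ.prod e.open_target).mem_nhds
        ⟨mem_univ _, e.map_source hm⟩)) (continuousAt_fst.snd.prodMk ce)
  have cl : ∀ a, ContinuousAt (fun q : (Λ × Λ) × Y => lam a (e q.2, q.1.1)) q0 := fun a =>
    ContinuousAt.comp (f := fun q : (Λ × Λ) × Y => (e q.2, q.1.1))
      (sl a _ _ (e.map_source hm)).continuousAt (ce.prodMk continuousAt_fst.fst)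
  have cl' : ∀ a, ContinuousAt
      (fun q : (Λ × Λ) × Y => fderiv ℝ (fun z => lam a (z, q.1.1)) (e q.2)) q0 := fun a =>
    ContinuousAt.comp (f := fun q : (Λ × Λ) × Y => (e q.2, q.1.1))
      (contDiffAt_fderiv_fst (sl a _ _ (e.map_source hm))).continuousAt
      (ce.prodMk continuousAt_fst.fst)
  have ev : ∀ {k : ℕ} {m : (Λ × Λ) × Y → Fin k → E (Fin d)}, ContinuousAt m q0 → ContinuousAt
      (fun q : (Λ × Λ) × Y => iteratedFDeriv ℝ k (u q.1.2 ∘ e.symm) (e q.2) (m q)) q0 :=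
    fun hm => ContinuousAt.eval (cu _) hm
  have hs : ∀ᶠ q : (Λ × Λ) × Y in 𝓝 q0, q.2 ∈ e.source :=
    continuousAt_snd.eventually (e.open_source.mem_nhds hm)
  refine ContinuousAt.prodMk ?_ (ContinuousAt.prodMk (continuousAt_pi.2 fun a => ?_)
    (continuousAt_pi.2 fun a => continuousAt_pi.2 fun c => ?_))
  · refine (ev (k := 0) (m := fun _ => ![]) continuousAt_const).congr ?_
    filter_upwards [hs] with q hq
    simp [e.left_inv hq]
  · refine (ev (k := 1) (m := fun q _ => lam a (e q.2, q.1.1))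
      (continuousAt_pi.2 fun _ => cl a)).congr ?_
    filter_upwards [hs] with q hq
    rw [iteratedFDeriv_one_apply, hD _ _ _ _ hq]
  · refine ((ev (k := 2) (m := fun q => ![lam a (e q.2, q.1.1), lam c (e q.2, q.1.1)])
      (continuousAt_pi.2 fun i => ?_)).add (ev (k := 1) (m := fun q =>
        ![fderiv ℝ (fun z => lam c (z, q.1.1)) (e q.2) (lam a (e q.2, q.1.1))])
        (continuousAt_pi.2 fun i => ?_))).congr ?_
    · fin_cases i
      · exact cl a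
      · exact cl c
    · fin_cases i
      exact (cl' c).clm_apply (cl a)
    · filter_upwards [hs] with q hq
      exact (hDD _ _ _ _ _ hq).symm

end Cont

theorem tube {α β : Type} [NormedAddCommGroup α] [TopologicalSpace β] {K : Set β}
    (hK : IsCompact K) {H : α × β → ℝ} (hH : Continuous H) {ε : ℝ} (h0 : ∀ y ∈ K, H (0, y) < ε) :
    ∃ δ > 0, ∀ x, ‖x‖ ≤ δ → ∀ y ∈ K, H (x, y) < ε := by
  have h1 := hK.eventually_forall_of_forall_eventually (x₀ := (0 : α))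
    (P := fun x y => H (x, y) < ε) fun y hy =>
      hH.continuousAt.eventually_lt continuousAt_const (h0 y hy)
  obtain ⟨δ, hδ, h⟩ := nhds_basis_closedBall.eventually_iff.1 h1
  exact ⟨δ, hδ, fun x hx => h (mem_closedBall_zero_iff.2 hx)⟩

theorem fam (h5 : F5Stmt) : FamStmt := by
  intro d ι κ _ _ _ Y _ _ _ _ _ _ ch N b Q σ abar u0 ε K V hN hx hb hQ hσ Q0 σ0 hu hε hK hV hKV hσK
  rcases isEmpty_or_nonempty Y with hY | ⟨⟨y0⟩⟩
  · exact ⟨fun _ _ => 0, K, SmJ.const 0, hK, hKV, fun _ p => hY.elim p, fun _ p => hY.elim p,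
      fun _ p => hY.elim p⟩
  have a0 : 0 ≤ abar := (σ0 0 y0).1.trans (σ0 0 y0).2
  obtain ⟨u, hCJ, hbd, hz, hsol⟩ := h5 d ι κ Y ch N b Q σ abar u0 hN hx hb hQ hσ Q0 σ0 hu a0
  have mem : ∀ p, p ∈ (ch p).source := fun p => by have := (N 0).mem p; rwa [hN] at this
  have su : ∀ ξ, SmA ch (u ξ) := fun ξ p => (hCJ p).1 ξ
  have sm : ∀ ξ {f : Y → ℝ}, SmA ch f → (N ξ).Sm f := fun ξ f hf => by rw [Imm.Sm, hN]; exact hf
  obtain ⟨r0, r0p, hr0⟩ := hK.exists_cthickening_subset_open hV hKV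
  have hK' : IsCompact (cthickening r0 K) := hK.cthickening
  have hKY := hK'.prod (isCompact_univ (X := Y))
  have cJ := continuous_jet hN hx hCJ
  have cc : Continuous fun y : (κ → ℝ) × Y =>
      ((fun a => b y.1 a y.2, Q y.1 y.2, σ y.1 y.2) : (ι → ℝ) × ℝ × ℝ) :=
    (continuous_pi fun a => (hb a).continuous mem).prodMk
      ((hQ.continuous mem).prodMk (hσ.continuous mem))
  have cJ0 : Continuous fun y : (κ → ℝ) × Y => jet (N y.1) (u y.1) y.2 :=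
    cJ.comp (f := fun y : (κ → ℝ) × Y => ((y.1, y.1), y.2)) (by fun_prop)
  obtain ⟨δ, δp, hδ⟩ := tube hKY (ε := ε) (H := fun q : Jet ι × (κ → ℝ) × Y =>
    |Psi' u0 (fun a => b q.2.1 a q.2.2, Q q.2.1 q.2.2, σ q.2.1 q.2.2)
      (jet (N q.2.1) (u q.2.1) q.2.2 + q.1)|)
    (((continuous_Psi hu).comp ((cc.comp continuous_snd).prodMk
      ((cJ0.comp continuous_snd).add continuous_fst))).abs) fun y _ => by
      rw [add_zero, ← dfc_eq _ _ _ _ (sm _ (su _)) u0 (hbd _ _).1, hsol, abs_zero]; exact hε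
  obtain ⟨ρ, ρp, hρ⟩ := tube hKY (ε := δ) (H := fun q : (κ → ℝ) × (κ → ℝ) × Y =>
    ‖jet (N q.2.1) (u (q.2.1 + q.1)) q.2.2 - jet (N q.2.1) (u q.2.1) q.2.2‖)
    (((cJ.comp (f := fun q : (κ → ℝ) × (κ → ℝ) × Y => ((q.2.1, q.2.1 + q.1), q.2.2))
      (by fun_prop)).sub (cJ0.comp continuous_snd)).norm) fun y _ => by simpa using δp
  obtain ⟨t, htK, htf, hcov⟩ := finite_cover_balls_of_compact hK (lt_min ρp r0p)
  haveI := htf.fintype
  obtain ⟨l, hl⟩ := SmoothPartitionOfUnity.exists_isSubordinate 𝓘(ℝ, κ → ℝ) isClosed_univ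
    (fun i : Option t => i.elim Kᶜ fun j => ball (j : κ → ℝ) (min ρ r0))
    (fun i => by cases i <;> [exact hK.isClosed.isOpen_compl; exact isOpen_ball])
    (fun ξ _ => by
      by_cases h : ξ ∈ K
      · obtain ⟨j, hj, h2⟩ := mem_iUnion₂.1 (hcov h)
        exact mem_iUnion.2 ⟨some ⟨j, hj⟩, h2⟩
      · exact mem_iUnion.2 ⟨none, h⟩)
  have l1 : ∀ ξ, l none ξ + ∑ j : t, l (some j) ξ = 1 := fun ξ => by
    have := l.sum_eq_one (mem_univ ξ)
    rwa [finsum_eq_sum_of_fintype, Fintype.sum_option] at this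
  have lb : ∀ (j : t) ξ, l (some j) ξ ≠ 0 → ξ ∈ ball (j : κ → ℝ) (min ρ r0) := fun j ξ h =>
    hl (some j) (subset_tsupport _ h)
  have lK : ∀ (j : t) ξ, l (some j) ξ ≠ 0 → ξ ∈ cthickening r0 K := fun j ξ h =>
    mem_cthickening_of_dist_le ξ j r0 K (htK j.2)
      ((mem_ball.1 (lb j ξ h)).le.trans (min_le_right _ _))
  have hzK : ∀ ξ, ξ ∉ K → ∀ p, u ξ p = 0 := fun ξ h => hz ξ fun p => by
    by_contra h0; exact h (hσK ξ p h0)
  have sv : SmJ ch univ fun ξ p => ∑ j : t, l (some j) ξ * u j p :=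
    SmJ.sum _ fun j _ => (SmJ.param (l (some j)).contMDiff.contDiff.contDiffOn).mul
      (SmJ.of_smA (su j))
  have v0 : ∀ ξ p, 0 ≤ ∑ j : t, l (some j) ξ * u j p := fun ξ p =>
    Finset.sum_nonneg fun j _ => mul_nonneg (l.nonneg _ _) (hbd _ _).1
  refine ⟨fun ξ p => ∑ j : t, l (some j) ξ * u j p, cthickening r0 K, sv, hK', hr0,
    fun ξ p h => ?_, fun ξ p => ⟨v0 ξ p, ?_⟩, fun ξ p => ?_⟩
  · obtain ⟨j, -, hj⟩ := Finset.exists_ne_zero_of_sum_ne_zero h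
    exact lK j ξ (left_ne_zero_of_mul hj)
  · have h1 : ∑ j : t, l (some j) ξ * u j p ≤
        ∑ j : t, l (some j) ξ * (√(u0 ^ 2 + 4 * abar) - u0) :=
      Finset.sum_le_sum fun j _ => mul_le_mul_of_nonneg_left (hbd _ _).2 (l.nonneg _ _)
    rw [← Finset.sum_mul] at h1
    have h2 : 0 ≤ √(u0 ^ 2 + 4 * abar) - u0 := (hbd 0 p).1.trans (hbd 0 p).2
    have h3 := mul_nonneg (l.nonneg none ξ) h2
    have h4 : u0 + ∑ j : t, l (some j) ξ * u j p ≤ √(u0 ^ 2 + 4 * abar) := by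
      have := l1 ξ
      rw [show ∑ j : t, l (some j) ξ = 1 - l none ξ by linarith] at h1
      linarith
    calc _ ≤ √(u0 ^ 2 + 4 * abar) ^ 2 := pow_le_pow_left₀ (by linarith [v0 ξ p]) h4 2
      _ = _ := Real.sq_sqrt (by positivity)
  · by_cases hξ : ξ ∈ cthickening r0 K
    · rw [dfc_eq _ _ _ _ (sm ξ (sv.slice (mem_univ ξ))) u0 (v0 ξ p),
        jet_sum (N ξ) _ _ fun j : t => sm ξ (su j)]
      have e : ∑ j : t, l (some j) ξ • jet (N ξ) (u j) p = jet (N ξ) (u ξ) p +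
          ∑ j : t, l (some j) ξ • (jet (N ξ) (u j) p - jet (N ξ) (u ξ) p) := by
        have h1 : l none ξ • jet (N ξ) (u ξ) p = 0 := by
          by_cases h : l none ξ = 0
          · rw [h, zero_smul]
          · rw [jet_zero _ (hzK ξ (hl none (subset_tsupport _ h))), smul_zero]
        simp only [smul_sub, Finset.sum_sub_distrib, ← Finset.sum_smul]
        rw [show ∑ j : t, l (some j) ξ = 1 - l none ξ by linarith [l1 ξ], sub_smul, h1, one_smul]
        abel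
      rw [e]
      refine (hδ _ ?_ (ξ, p) ⟨hξ, mem_univ _⟩).le
      refine (norm_sum_le _ _).trans ((Finset.sum_le_sum (g := fun j : t => l (some j) ξ * δ)
        fun j _ => ?_).trans ?_)
      · rw [norm_smul, Real.norm_of_nonneg (l.nonneg _ _)]
        by_cases h : l (some j) ξ = 0
        · simp [h]
        · refine mul_le_mul_of_nonneg_left ?_ (l.nonneg _ _)
          have := hρ (j - ξ) (by
            rw [← dist_eq_norm, dist_comm]
            exact (mem_ball.1 (lb j ξ h)).le.trans (min_le_left _ _)) (ξ, p) ⟨hξ, mem_univ _⟩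
          simpa using this.le
      · rw [← Finset.sum_mul]
        nlinarith [l1 ξ, l.nonneg none ξ]
    · have e : (fun p => ∑ j : t, l (some j) ξ * u j p) = u ξ := funext fun q => by
        rw [hzK ξ fun h => hξ (self_subset_cthickening K h)]
        refine Finset.sum_eq_zero fun j _ => ?_
        by_cases h : l (some j) ξ = 0
        · rw [h, zero_mul]
        · exact absurd (lK j ξ h) hξ
      beta_reduce
      rw [e, hsol, abs_zero]
      exact hε.le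

end Crest.Agent.N222.A

end
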