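import Crest.Agent.N222.A.SmJ
import Crest.Agent.N222.F.Res
import Crest.Agent.N222.F.Hess
import Crest.Agent.N222.A.GDefs

-- ▼ part N222/A/Par
section

/-!
# Row 222, part A (helper89): products with a parameter space, scaling
-/

set_option autoImplicit false
set_option linter.dupNamespace false
set_option linter.unusedSectionVars false
open Set Filter Topology Function
open scoped ContDiff InnerProductSpace RealInnerProductSpace

noncomputable section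

namespace Crest.Agent.N222

/-- characterisation of the tangential derivative -/
theorem Imm.td_unique {d : ℕ} {ι : Type} [Fintype ι] {X : Type} [TopologicalSpace X]
    (M : Imm d ι X) {F : Type} [NormedAddCommGroup F] [NormedSpace ℝ F] (f : X → F) (p : X)
    (L : E ι →L[ℝ] F) (h1 : ∀ v, L (M.J p v) = fderiv ℝ (f ∘ (M.ch p).symm) (M.ch p p) v)
    (h2 : ∀ w, (∀ v, ⟪M.J p v, w⟫ = 0) → L w = 0) : M.td f p = L := by
  ext1 w
  have h3 := h2 _ fun v => inner_sub_proj (M.J_inj p) v w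
  rw [map_sub, h1, sub_eq_zero] at h3
  exact h3.symm

/-! ### products with a parameter space -/

section Par

variable {n : ℕ} {ι : Type} [Fintype ι] {X : Type} [TopologicalSpace X] (κ : Type) [Fintype κ]

/-- coordinates on the product of the model spaces -/
def plin (n : ℕ) : ((κ → ℝ) × E (Fin n)) ≃L[ℝ] E (Fin (n + Fintype.card κ)) :=
  ContinuousLinearEquiv.ofFinrankEq (by simp [add_comm])

variable {κ} in
/-- `(ξ, y) ↦ (y, ξ) ∈ ℝ^(ι ⊕ κ)` -/
def comb : ((κ → ℝ) × E ι) →L[ℝ] E (ι ⊕ κ) :=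
  LinearMap.toContinuousLinearMap
    { toFun := fun q => WithLp.toLp 2 (Sum.elim (fun a => q.2 a) q.1)
      map_add' := fun q r => by ext c; cases c <;> rfl
      map_smul' := fun c q => by ext e; cases e <;> rfl }

variable {κ} in
@[simp] theorem comb_inl (q : (κ → ℝ) × E ι) (a : ι) : comb q (Sum.inl a) = q.2 a := rfl

variable {κ} in
@[simp] theorem comb_inr (q : (κ → ℝ) × E ι) (j : κ) : comb q (Sum.inr j) = q.1 j := rfl

variable {κ} in
theorem comb_inj : Injective (comb : ((κ → ℝ) × E ι) →L[ℝ] E (ι ⊕ κ)) := by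
  intro q r h
  refine Prod.ext (funext fun j => ?_) ?_
  · simpa using congrArg (fun w : E (ι ⊕ κ) => w (Sum.inr j)) h
  · ext a
    simpa using congrArg (fun w : E (ι ⊕ κ) => w (Sum.inl a)) h

/-- product charts -/
def pch (e : OpenPartialHomeomorph X (E (Fin n))) :
    OpenPartialHomeomorph ((κ → ℝ) × X) (E (Fin (n + Fintype.card κ))) :=
  ((OpenPartialHomeomorph.refl (κ → ℝ)).prod e).trans
    (plin κ n).toHomeomorph.toOpenPartialHomeomorph

theorem pch_source (e : OpenPartialHomeomorph X (E (Fin n))) :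
    (pch κ e).source = univ ×ˢ e.source := by simp [pch]

theorem mem_pch_target (e : OpenPartialHomeomorph X (E (Fin n)))
    {z : E (Fin (n + Fintype.card κ))} : z ∈ (pch κ e).target ↔ ((plin κ n).symm z).2 ∈ e.target := by
  simp [pch]

theorem pch_apply (e : OpenPartialHomeomorph X (E (Fin n))) (q : (κ → ℝ) × X) :
    pch κ e q = plin κ n (q.1, e q.2) := rfl


theorem IsChart.pch {x : X → E ι} {e : OpenPartialHomeomorph X (E (Fin n))} (he : IsChart x e) :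
    IsChart (fun q : (κ → ℝ) × X => comb (q.1, x q.2)) (pch κ e) := by
  have key : ∀ z ∈ (N222.pch κ e).target, ContDiffAt ℝ ∞ (x ∘ e.symm) ((plin κ n).symm z).2 :=
    fun z hz => he.sm.contDiffAt (e.open_target.mem_nhds ((mem_pch_target κ e).1 hz))
  refine ⟨fun z hz => ContDiffAt.contDiffWithinAt ?_, fun z hz => ?_⟩
  · have h1 : ContDiffAt ℝ ∞ (plin κ n).symm z := (plin κ n).symm.contDiff.contDiffAt
    have h2 := h1.fst.prodMk ((key z hz).comp z h1.snd)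
    exact (comb (κ := κ) (ι := ι)).contDiff.contDiffAt.comp z h2
  · have h1 : HasFDerivAt (plin κ n).symm ((plin κ n).symm : _ →L[ℝ] _) z :=
      (plin κ n).symm.hasFDerivAt
    have h2 := ((key z hz).differentiableAt (by simp)).hasFDerivAt
    have h8 := h1.fst.prodMk (h2.comp z h1.snd)
    have h3 := (comb (κ := κ) (ι := ι)).hasFDerivAt.comp z h8
    have h4 : fderiv ℝ ((fun q : (κ → ℝ) × X => comb (q.1, x q.2)) ∘ (N222.pch κ e).symm) z = _ :=
      h3.fderiv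
    rw [h4]
    intro v w hvw
    have h5 := comb_inj hvw
    have h6 := congrArg Prod.fst h5
    have h7 := congrArg Prod.snd h5
    exact (plin κ n).symm.injective (Prod.ext h6 (he.inj _ ((mem_pch_target κ e).1 hz) h7))

/-- the product with a parameter space; its smooth functions are the smooth families -/
def Imm.par (N : Imm n ι X) : Imm (n + Fintype.card κ) (ι ⊕ κ) ((κ → ℝ) × X) where
  x q := comb (q.1, N.x q.2)
  ch q := pch κ (N.ch q.2)
  mem q := by rw [pch_source]; exact ⟨mem_univ _, N.mem q.2⟩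
  isChart q := (N.isChart q.2).pch κ

variable {κ}

/-- the `ι` part -/
def prL : E (ι ⊕ κ) →L[ℝ] E ι :=
  LinearMap.toContinuousLinearMap
    { toFun := fun w => WithLp.toLp 2 fun a => w (Sum.inl a)
      map_add' := fun _ _ => rfl
      map_smul' := fun _ _ => rfl }

/-- the `κ` part -/
def prR : E (ι ⊕ κ) →L[ℝ] (κ → ℝ) :=
  LinearMap.toContinuousLinearMap
    { toFun := fun w j => w (Sum.inr j)
      map_add' := fun _ _ => rfl
      map_smul' := fun _ _ => rfl }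

@[simp] theorem prL_apply (w : E (ι ⊕ κ)) (a : ι) : prL w a = w (Sum.inl a) := rfl

@[simp] theorem prR_apply (w : E (ι ⊕ κ)) (j : κ) : prR w j = w (Sum.inr j) := rfl

@[simp] theorem prL_comb (q : (κ → ℝ) × E ι) : prL (comb q) = q.2 := rfl

@[simp] theorem prR_comb (q : (κ → ℝ) × E ι) : prR (comb q) = q.1 := rfl

theorem comb_pr (w : E (ι ⊕ κ)) : comb (prR w, prL w) = w := by
  ext c; cases c <;> rfl

theorem inner_comb (q : (κ → ℝ) × E ι) (w : E (ι ⊕ κ)) :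
    ⟪comb q, w⟫ = ⟪q.2, prL w⟫ + ∑ j, q.1 j * prR w j := by
  simp [PiLp.inner_apply, Fintype.sum_sum_type, mul_comm]

namespace Imm

variable {N : Imm n ι X} {V : Type} [NormedAddCommGroup V] [NormedSpace ℝ V]

@[simp] theorem par_x (q : (κ → ℝ) × X) : (N.par κ).x q = comb (q.1, N.x q.2) := rfl

theorem par_J (q : (κ → ℝ) × X) (v : E (Fin (n + Fintype.card κ))) :
    (N.par κ).J q v = comb (((plin κ n).symm v).1, N.J q.2 ((plin κ n).symm v).2) := by
  have h1 : HasFDerivAt (plin κ n).symm ((plin κ n).symm : _ →L[ℝ] _) (pch κ (N.ch q.2) q) :=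
    (plin κ n).symm.hasFDerivAt
  have h0 : ((plin κ n).symm (pch κ (N.ch q.2) q)).2 = N.ch q.2 q.2 := by simp [pch_apply]
  have h2 : HasFDerivAt (N.x ∘ (N.ch q.2).symm) (N.J q.2)
      ((plin κ n).symm (pch κ (N.ch q.2) q)).2 := by
    rw [h0]
    exact (((N.isChart q.2).sm.contDiffAt ((N.ch q.2).open_target.mem_nhds
      ((N.ch q.2).map_source (N.mem q.2)))).differentiableAt (by simp)).hasFDerivAt
  have h5 := h1.fst.prodMk (h2.comp (pch κ (N.ch q.2) q) h1.snd)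
  have h3 := (comb (κ := κ) (ι := ι)).hasFDerivAt.comp (pch κ (N.ch q.2) q) h5
  have h4 : (N.par κ).J q = _ := h3.fderiv
  rw [h4]
  rfl

/-- a family in the product chart -/
def cf (N : Imm n ι X) (F : (κ → ℝ) × X → V) (p : X) (r : (κ → ℝ) × E (Fin n)) : V :=
  F (r.1, (N.ch p).symm r.2)

theorem par_comp (F : (κ → ℝ) × X → V) (q : (κ → ℝ) × X) :
    F ∘ ((N.par κ).ch q).symm = N.cf F q.2 ∘ (plin κ n).symm := rfl

theorem par_diffAt {F : (κ → ℝ) × X → V} {q : (κ → ℝ) × X} :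
    (N.par κ).DiffAt F q ↔ DifferentiableAt ℝ (N.cf F q.2) (q.1, N.ch q.2 q.2) := by
  unfold DiffAt
  rw [par_comp, (plin κ n).symm.comp_right_differentiableAt_iff]
  change DifferentiableAt ℝ _ ((plin κ n).symm (plin κ n (q.1, N.ch q.2 q.2))) ↔ _
  rw [ContinuousLinearEquiv.symm_apply_apply]

theorem par_td (F : (κ → ℝ) × X → V) (q : (κ → ℝ) × X) (w : E (ι ⊕ κ)) :
    (N.par κ).td F q w = fderiv ℝ (N.cf F q.2) (q.1, N.ch q.2 q.2)
      (prR w, ContinuousLinearMap.adjoint (Lam (N.J q.2)) (prL w)) := by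
  rw [(N.par κ).td_unique F q (fderiv ℝ (N.cf F q.2) (q.1, N.ch q.2 q.2) ∘L
    (prR.prod (ContinuousLinearMap.adjoint (Lam (N.J q.2)) ∘L prL)))]
  · rfl
  · intro v
    rw [par_J, par_comp, (plin κ n).symm.comp_right_fderiv]
    change _ = fderiv ℝ _ ((plin κ n).symm (plin κ n (q.1, N.ch q.2 q.2))) _
    simp [adj_Lam_apply (N.J_inj q.2)]
  · intro w hw
    have h1 : ∀ r : (κ → ℝ) × E (Fin n), ⟪N.J q.2 r.2, prL w⟫ + ∑ j, r.1 j * prR w j = 0 :=
      fun r => by simpa [par_J, inner_comb] using hw (plin κ n r)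
    have h2 : prR w = 0 := by
      classical
      funext j
      simpa [Pi.single_apply] using h1 (Pi.single j 1, 0)
    have h3 : ContinuousLinearMap.adjoint (Lam (N.J q.2)) (prL w) = 0 :=
      adj_Lam_eq_zero fun v => by simpa using h1 (0, v)
    simp [h2, h3, ← Prod.zero_eq_mk]

theorem par_sm {F : (κ → ℝ) × X → V} :
    (N.par κ).Sm F ↔ A.SmJ N.ch univ fun ξ p => F (ξ, p) := by
  constructor
  · intro h p
    have h1 := h (0, p)
    refine (h1.comp ((plin κ n).contDiff.comp (contDiff_snd.prodMk contDiff_fst)).contDiffOn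
      fun r hr => (mem_pch_target κ _).2 (by simpa using hr.1)).congr fun r _ => ?_
    simp [par_comp, cf]
  · intro h q
    have h1 : ContDiff ℝ ∞ (plin κ n).symm := (plin κ n).symm.contDiff
    exact (h q.2).comp (h1.snd.prodMk h1.fst).contDiffOn
      fun z hz => ⟨(mem_pch_target κ _).1 hz, mem_univ _⟩

theorem par_sm_snd {f : X → V} (hf : N.Sm f) : (N.par κ).Sm fun q => f q.2 :=
  par_sm.2 (A.SmJ.of_smA hf)

theorem par_sm_fst {r : (κ → ℝ) → V} (hr : ContDiff ℝ ∞ r) : (N.par κ).Sm fun q => r q.1 :=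
  par_sm.2 (A.SmJ.param hr.contDiffOn)

variable [DecidableEq ι] [DecidableEq κ]

theorem par_D_inl {F : (κ → ℝ) × X → ℝ} {q : (κ → ℝ) × X} (hF : (N.par κ).DiffAt F q) (a : ι) :
    (N.par κ).pre.D (Sum.inl a) F q = N.pre.D a (fun p => F (q.1, p)) q.2 := by
  have h1 := (par_diffAt.1 hF).hasFDerivAt.comp (N.ch q.2 q.2)
    (hasFDerivAt_prodMk_right q.1 (N.ch q.2 q.2))
  have h2 : fderiv ℝ ((fun p => F (q.1, p)) ∘ (N.ch q.2).symm) (N.ch q.2 q.2) = _ := h1.fderiv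
  have e1 : prR (ee (Sum.inl a) : E (ι ⊕ κ)) = 0 := by ext j; simp
  have e2 : prL (ee (Sum.inl a) : E (ι ⊕ κ)) = ee a := by ext j; simp
  change (N.par κ).td F q _ = N.td _ _ _
  rw [par_td, e1, e2, td, h2]
  rfl

theorem par_D_inr {F : (κ → ℝ) × X → ℝ} {q : (κ → ℝ) × X} (hF : (N.par κ).DiffAt F q) (j : κ) :
    (N.par κ).pre.D (Sum.inr j) F q = fderiv ℝ (fun ξ => F (ξ, q.2)) q.1 (Pi.single j 1) := by
  have h1 := HasFDerivAt.comp (f := fun ξ => (ξ, N.ch q.2 q.2)) q.1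
    (par_diffAt.1 hF).hasFDerivAt (hasFDerivAt_prodMk_left (𝕜 := ℝ) q.1 (N.ch q.2 q.2))
  have h0 : (N.cf F q.2 ∘ fun ξ => (ξ, N.ch q.2 q.2)) = fun ξ => F (ξ, q.2) := by
    funext ξ
    simp [cf, (N.ch q.2).left_inv (N.mem q.2)]
  rw [h0] at h1
  have e1 : prR (ee (Sum.inr j) : E (ι ⊕ κ)) = Pi.single j 1 := by
    ext i; simp [Pi.single_apply]
  have e2 : prL (ee (Sum.inr j) : E (ι ⊕ κ)) = 0 := by ext i; simp
  change (N.par κ).td F q _ = _
  rw [par_td, e1, e2, h1.fderiv, map_zero]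
  rfl

end Imm

end Par

/-! ### scaling the parameter directions -/

section Scale

variable {d : ℕ} {ι κ : Type} [Fintype ι] [Fintype κ] {X : Type} [TopologicalSpace X]

/-- multiply the `κ` part by `s` -/
def scl (s : ℝ) : E (ι ⊕ κ) →L[ℝ] E (ι ⊕ κ) := comb ∘L ((s • prR).prod prL)

theorem scl_apply (s : ℝ) (w : E (ι ⊕ κ)) : scl s w = comb (s • prR w, prL w) := rfl

theorem scl_scl (s t : ℝ) (w : E (ι ⊕ κ)) : scl s (scl t w) = scl (s * t) w := by
  simp [scl_apply, smul_smul]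

theorem scl_one (w : E (ι ⊕ κ)) : scl 1 w = w := by simp [scl_apply, comb_pr]

/-- the immersion `(x, y / s)` -/
def Imm.scale (M : Imm d (ι ⊕ κ) X) (s : ℝ) (hs : s ≠ 0) : Imm d (ι ⊕ κ) X where
  x p := scl s⁻¹ (M.x p)
  ch := M.ch
  mem := M.mem
  isChart p := by
    refine ⟨(scl (ι := ι) (κ := κ) s⁻¹).contDiff.comp_contDiffOn (M.isChart p).sm,
      fun z hz => ?_⟩
    have h2 := (((M.isChart p).sm.contDiffAt ((M.ch p).open_target.mem_nhds hz)).differentiableAt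
      (by simp)).hasFDerivAt
    have h4 : fderiv ℝ ((fun p => scl s⁻¹ (M.x p)) ∘ (M.ch p).symm) z = _ :=
      ((scl (ι := ι) (κ := κ) s⁻¹).hasFDerivAt.comp z h2).fderiv
    rw [h4]
    intro v w h
    have h5 := congrArg (scl s) h
    simp only [ContinuousLinearMap.comp_apply, scl_scl, mul_inv_cancel₀ hs, scl_one] at h5
    exact (M.isChart p).inj z hz h5

theorem Imm.scale_J (M : Imm d (ι ⊕ κ) X) {s : ℝ} (hs : s ≠ 0) (p : X) (v : E (Fin d)) :
    (M.scale s hs).J p v = scl s⁻¹ (M.J p v) := by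
  have h2 := (((M.isChart p).sm.contDiffAt ((M.ch p).open_target.mem_nhds
    ((M.ch p).map_source (M.mem p)))).differentiableAt (by simp)).hasFDerivAt
  have h4 : (M.scale s hs).J p = _ :=
    ((scl (ι := ι) (κ := κ) s⁻¹).hasFDerivAt.comp (M.ch p p) h2).fderiv
  rw [h4]
  rfl

theorem Imm.scale_td (M : Imm d (ι ⊕ κ) X) {s : ℝ} (hs : s ≠ 0) {p : X}
    (hp : ∀ ξ : κ → ℝ, ∃ v, M.J p v = comb (ξ, 0)) {V : Type} [NormedAddCommGroup V]
    [NormedSpace ℝ V] (f : X → V) (w : E (ι ⊕ κ)) :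
    (M.scale s hs).td f p w = M.td f p (scl s w) := by
  rw [(M.scale s hs).td_unique f p (M.td f p ∘L scl s)]
  · rfl
  · intro v
    rw [ContinuousLinearMap.comp_apply, M.scale_J, scl_scl, mul_inv_cancel₀ hs, scl_one]
    change fderiv ℝ _ _ (ContinuousLinearMap.adjoint (Lam (M.J p)) (M.J p v)) = _
    rw [adj_Lam_apply (M.J_inj p)]
    rfl
  · intro w hw
    have h2 : prR w = 0 := by
      classical
      funext j
      obtain ⟨v, hv⟩ := hp (Pi.single j s)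
      have := hw v
      rw [M.scale_J, hv, scl_apply, inner_comb] at this
      simpa [Pi.single_apply, hs] using this
    have h3 : scl s w = w := by rw [scl_apply, h2, smul_zero, ← h2, comb_pr]
    change fderiv ℝ _ _ (ContinuousLinearMap.adjoint (Lam (M.J p)) (scl s w)) = _
    rw [h3, adj_Lam_eq_zero, map_zero]
    intro v
    have := hw v
    rw [M.scale_J, scl_apply, inner_comb, h2] at this
    rw [← comb_pr (M.J p v), inner_comb, h2]
    simpa using this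

end Scale

end Crest.Agent.N222

end
end

-- ▼ part N222/A/Fib

/-!
# Row 222, part A (helper89): the concrete fibred setting and the output of part A in this setting
-/

set_option autoImplicit false
set_option linter.dupNamespace false
set_option linter.unusedSectionVars false
open Set Filter Topology Function
open scoped ContDiff InnerProductSpace RealInnerProductSpace

noncomputable section

namespace Crest.Agent.N222.A

/-- `Z` is locally `(κ → ℝ) × T`; generators; the compact region `Om` -/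
structure Fib (n : ℕ) (ι κ : Type) [Fintype ι] [Fintype κ] [DecidableEq ι] (T Z : Type)
    [TopologicalSpace T] [TopologicalSpace Z] where
  MT : Imm n ι T
  M : Imm (n + Fintype.card κ) (ι ⊕ κ) Z
  W : Type
  φ : W → OpenPartialHomeomorph ((κ → ℝ) × T) Z
  cover : ∀ z, ∃ w, z ∈ (φ w).target
  hx : ∀ w, ∀ q ∈ (φ w).source, M.x (φ w q) = comb (q.1, MT.x q.2)
  bT : ι → T → ℝ
  bT_sm : ∀ a, MT.Sm (bT a)
  bT_tan : MT.pre.Tan bT
  b : ι → Z → ℝ
  b_φ : ∀ w, ∀ q ∈ (φ w).source, ∀ a, b a (φ w q) = bT a q.2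
  G : Type
  [fin : Fintype G]
  [dec : DecidableEq G]
  w : G → W
  U : G → Set (κ → ℝ)
  U_open : ∀ g, IsOpen (U g)
  U_sub : ∀ g, U g ×ˢ univ ⊆ (φ (w g)).source
  closed : ∀ g K, IsCompact K → K ⊆ U g → IsClosed (φ (w g) '' (K ×ˢ univ))
  Om : Set Z
  Om_cpt : IsCompact Om
  Om_cover : ∀ z ∈ Om, ∃ g, z ∈ φ (w g) '' (U g ×ˢ univ)
  Om_loc : ∀ g, ∃ D : Set T, IsCompact D ∧ ∀ x, ∀ ξ ∈ U g, φ (w g) (ξ, x) ∈ Om → x ∈ D

attribute [instance] Fib.fin Fib.dec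

namespace Fib

variable {n : ℕ} {ι κ : Type} [Fintype ι] [Fintype κ] [DecidableEq ι] [DecidableEq κ] {T Z : Type}
  [TopologicalSpace T] [TopologicalSpace Z] (F : Fib n ι κ T Z)

/-- the region of a generator -/
def O (g : F.G) : Set Z := F.φ (F.w g) '' (F.U g ×ˢ univ)

/-- supported over a compact part of the chart -/
def Su (g : F.G) (f : Z → ℝ) : Prop :=
  ∃ K, IsCompact K ∧ K ⊆ F.U g ∧ ∀ z, f z ≠ 0 → z ∈ F.φ (F.w g) '' (K ×ˢ univ)

/-- `⟨df, dh⟩` for the metric `g_T + s⁻² dξ²` -/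
def G0 (s : ℝ) (f h : Z → ℝ) (p : Z) : ℝ :=
  ∑ a, F.M.pre.D (Sum.inl a) f p * F.M.pre.D (Sum.inl a) h p +
    s ^ 2 * ∑ j, F.M.pre.D (Sum.inr j) f p * F.M.pre.D (Sum.inr j) h p

/-- the data of the bookkeeping -/
structure Data (K0 : ℝ) (χ d : F.G → Z → ℝ) (δ : F.G → F.G → Z → ℝ) : Prop where
  χ_sm : ∀ g, F.M.Sm (χ g)
  d_sm : ∀ g, F.M.Sm (d g)
  δ_sm : ∀ g g', F.M.Sm (δ g g')
  χ_su : ∀ g, F.Su g (χ g)
  χ_mem : ∀ g z, 0 ≤ χ g z ∧ χ g z ≤ 1
  init : ∀ᶠ s in 𝓝[≠] (0 : ℝ), ∀ p ∈ F.Om, ∑ g, χ g p = 1 ∧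
    (∃ j : F.G → ℝ, (∀ g, 0 ≤ j g ∧ F.G0 s (χ g) (χ g) p ≤ j g * χ g p) ∧ ∑ g, j g ≤ K0) ∧
    (∀ g, p ∈ F.O g → F.G0 s (d g) (d g) p ≤ K0 ∧ (0 < χ g p → d g p ≤ 1)) ∧
    ∀ g g', p ∈ F.O g → p ∈ F.O g' → F.G0 s (δ g g') (δ g g') p = 0 ∧
      d g p - d g' p ≤ δ g g' p ∧ δ g g' p ≤ d g p + d g' p

/-- the output at the scale `s` -/
def Out (s0 ρ I1 Λ s : ℝ) (d P : F.G → Z → ℝ) : Prop :=
  ∃ (ι' : Type) (_ : Fintype ι') (_ : DecidableEq ι') (M' : Imm (n + Fintype.card κ) ι' Z)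
    (b' : ι' → Z → ℝ), M'.ch = F.M.ch ∧ (∀ c, M'.Sm (b' c)) ∧ M'.pre.Tan b' ∧
    (∀ f, F.M.Sm f → ∀ p, M'.pre.gam f f p ≤ F.G0 s f f p) ∧
    ∀ p ∈ F.Om, ∑ g, P g p = 1 ∧ (∀ g, 0 < P g p → d g p ≤ ρ) ∧
      ∃ (j : F.G → ℝ) (I : ℝ), (∀ g, 0 ≤ j g ∧ M'.pre.gam (P g) (P g) p ≤ j g * P g p) ∧
        ∑ g, j g ≤ I ∧ I ≤ I1 ∧ s0 / 4 + Λ * I ≤ M'.pre.Eb b' p

end Fib

/-- **the output of part A in the concrete setting** -/
def AFStmt : Prop := ∀ (n : ℕ) (s0 K0 : ℝ), 0 < s0 → 1 ≤ K0 → ∃ ρ I1 : ℝ,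
  ∀ (ι κ : Type) [Fintype ι] [Fintype κ] [DecidableEq ι] [DecidableEq κ] (T Z : Type)
    [TopologicalSpace T] [T2Space T] [SecondCountableTopology T] [TopologicalSpace Z] [T2Space Z]
    (F : Fib n ι κ T Z) (χ d : F.G → Z → ℝ) (δ : F.G → F.G → Z → ℝ) (Λ : ℝ),
    (∀ x, s0 ≤ F.MT.pre.Eb F.bT x) → F.Data K0 χ d δ → 0 ≤ Λ → ∃ P : F.G → Z → ℝ,
      (∀ g, F.M.Sm (P g) ∧ F.Su g (P g) ∧ ∀ z, 0 ≤ P g z) ∧
      ∀ᶠ s in 𝓝[≠] (0 : ℝ), F.Out s0 ρ I1 Λ s d P

namespace Fib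

variable {n : ℕ} {ι κ : Type} [Fintype ι] [Fintype κ] [DecidableEq ι] [DecidableEq κ] {T Z : Type}
  [TopologicalSpace T] [TopologicalSpace Z] (F : Fib n ι κ T Z)
  {V : Type} [NormedAddCommGroup V] [NormedSpace ℝ V] {w : F.W} {q : (κ → ℝ) × T}

/-! ### calculus in a trivialisation -/

theorem loc (hq : q ∈ (F.φ w).source) : Loc (F.MT.par κ) F.M (F.φ w) q :=
  loc_of_mem (M := F.MT.par κ) (F.hx w) hq

theorem exists_q (z : Z) : ∃ w, ∃ q ∈ (F.φ w).source, F.φ w q = z := by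
  obtain ⟨w, hw⟩ := F.cover z
  exact ⟨w, _, (F.φ w).map_target hw, (F.φ w).right_inv hw⟩

/-- a function on `Z` is smooth if it is locally smooth in the trivialisations -/
theorem sm_of_loc {f : Z → V} (h : ∀ z, f =ᶠ[𝓝 z] 0 ∨ ∃ w, ∃ q ∈ (F.φ w).source, F.φ w q = z ∧
    ∃ H : (κ → ℝ) × T → V, (F.MT.par κ).Sm H ∧ (fun r => f (F.φ w r)) =ᶠ[𝓝 q] H) : F.M.Sm f := by
  refine Imm.sm_of_charts fun z => ?_
  rcases h z with h0 | ⟨w, q, hq, rfl, H, hH, hf⟩
  · refine ⟨F.M.ch z, F.M.isChart z, F.M.mem z, ?_⟩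
    have h1 : ContinuousAt (F.M.ch z).symm (F.M.ch z z) :=
      (F.M.ch z).continuousAt_symm ((F.M.ch z).map_source (F.M.mem z))
    have h2 : Tendsto (F.M.ch z).symm (𝓝 (F.M.ch z z)) (𝓝 z) := by
      have := h1.tendsto
      rwa [(F.M.ch z).left_inv (F.M.mem z)] at this
    exact (contDiffAt_const (c := (0 : V))).congr_of_eventuallyEq (h0.comp_tendsto h2)
  · set c := (F.MT.par κ).ch q
    have hc : q ∈ c.source := (F.MT.par κ).mem q
    refine ⟨(F.φ w).symm.trans c, IsChart.symm_trans (M := F.MT.par κ) (F.hx w)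
      ((F.MT.par κ).isChart q), ⟨(F.φ w).map_source hq, ?_⟩, ?_⟩
    · change (F.φ w).symm (F.φ w q) ∈ c.source
      rwa [(F.φ w).left_inv hq]
    · have e1 : ((F.φ w).symm.trans c) (F.φ w q) = c q := by
        change c ((F.φ w).symm (F.φ w q)) = _
        rw [(F.φ w).left_inv hq]
      rw [e1]
      have h1 : ContinuousAt c.symm (c q) := c.continuousAt_symm (c.map_source hc)
      have h2 : Tendsto c.symm (𝓝 (c q)) (𝓝 q) := by
        have := h1.tendsto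
        rwa [c.left_inv hc] at this
      exact ((hH q).contDiffAt (c.open_target.mem_nhds (c.map_source hc))).congr_of_eventuallyEq
        (hf.comp_tendsto h2)

theorem D_φ (hq : q ∈ (F.φ w).source) (f : Z → ℝ) (c : ι ⊕ κ) :
    F.M.pre.D c f (F.φ w q) = (F.MT.par κ).pre.D c (fun r => f (F.φ w r)) q :=
  ((F.loc hq).D_iso f c).symm

theorem D_inl (hq : q ∈ (F.φ w).source) {f : Z → ℝ} (hf : F.M.Sm f) (a : ι) :
    F.M.pre.D (Sum.inl a) f (F.φ w q) = F.MT.pre.D a (fun x => f (F.φ w (q.1, x))) q.2 := by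
  rw [F.D_φ hq, Imm.par_D_inl ((F.loc hq).diffAt (hf.diffAt _))]


/-- derivatives of a function which is locally a smooth family -/
theorem D_of_ev (hq : q ∈ (F.φ w).source) {f : Z → ℝ} {H : (κ → ℝ) × T → ℝ}
    (hH : (F.MT.par κ).Sm H) (h : (fun r => f (F.φ w r)) =ᶠ[𝓝 q] H) :
    (∀ a, F.M.pre.D (Sum.inl a) f (F.φ w q) = F.MT.pre.D a (fun x => H (q.1, x)) q.2) ∧
    ∀ j, F.M.pre.D (Sum.inr j) f (F.φ w q) =
      fderiv ℝ (fun ξ => H (ξ, q.2)) q.1 (Pi.single j 1) :=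
  ⟨fun a => by rw [F.D_φ hq, Imm.D_congr h, Imm.par_D_inl (hH.diffAt q)],
    fun j => by rw [F.D_φ hq, Imm.D_congr h, Imm.par_D_inr (hH.diffAt q)]⟩

/-- functions which come from the fibre -/
theorem D_pull (hq : q ∈ (F.φ w).source) {f : Z → ℝ} {h : T → ℝ} (hh : F.MT.Sm h)
    (e : ∀ r ∈ (F.φ w).source, f (F.φ w r) = h r.2) :
    (∀ a, F.M.pre.D (Sum.inl a) f (F.φ w q) = F.MT.pre.D a h q.2) ∧
    ∀ j, F.M.pre.D (Sum.inr j) f (F.φ w q) = 0 := by
  obtain ⟨h1, h2⟩ := F.D_of_ev hq (f := f) (Imm.par_sm_snd hh)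
    (by filter_upwards [(F.φ w).open_source.mem_nhds hq] with r hr using e r hr)
  exact ⟨h1, fun j => by simp [h2]⟩

/-- functions which come from the parameter -/
theorem D_param (hq : q ∈ (F.φ w).source) {f : Z → ℝ} {r : (κ → ℝ) → ℝ} (hr : ContDiff ℝ ∞ r)
    (e : ∀ y ∈ (F.φ w).source, f (F.φ w y) = r y.1) :
    (∀ a, F.M.pre.D (Sum.inl a) f (F.φ w q) = 0) ∧
    ∀ j, F.M.pre.D (Sum.inr j) f (F.φ w q) = fderiv ℝ r q.1 (Pi.single j 1) := by
  obtain ⟨h1, h2⟩ := F.D_of_ev hq (f := f) (Imm.par_sm_fst hr)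
    (by filter_upwards [(F.φ w).open_source.mem_nhds hq] with y hy using e y hy)
  exact ⟨fun a => by rw [h1]; exact Imm.D_const (M := F.MT) (r q.1) _ _, h2⟩

theorem sm_b (a : ι) : F.M.Sm (F.b a) := F.sm_of_loc fun z => by
  obtain ⟨w, q, hq, rfl⟩ := F.exists_q z
  exact Or.inr ⟨w, q, hq, rfl, _, Imm.par_sm_snd (F.bT_sm a), by
    filter_upwards [(F.φ w).open_source.mem_nhds hq] with r hr using F.b_φ w r hr a⟩

theorem split (z : Z) (ξ : κ → ℝ) : ∃ v, F.M.J z v = comb (ξ, 0) := by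
  obtain ⟨w, q, hq, rfl⟩ := F.exists_q z
  have h1 : (F.MT.par κ).PL q (comb (ξ, 0)) = comb (ξ, 0) := by
    have := Imm.PL_chart ((F.MT.par κ).isChart q) ((F.MT.par κ).mem q) (plin κ n (ξ, 0))
    have h2 := Imm.par_J (N := F.MT) q (plin κ n (ξ, 0))
    simp only [ContinuousLinearEquiv.symm_apply_apply, map_zero] at h2
    rwa [show fderiv ℝ ((F.MT.par κ).x ∘ ((F.MT.par κ).ch q).symm) ((F.MT.par κ).ch q q)
      (plin κ n (ξ, 0)) = _ from h2] at this
  rw [(F.loc hq).PL_iso] at h1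
  rw [← h1]
  exact Imm.PL_mem_range (F.M.isChart _) (F.M.mem _) _

/-! ### the initial state -/

/-- the calculus of `(x, ξ / s)` -/
def S0 (s : ℝ) : Pre (Z → ℝ) (ι ⊕ κ) where
  x := Sum.elim (fun a z => F.M.x z (Sum.inl a)) fun j z => s⁻¹ * F.M.x z (Sum.inr j)
  D c f := Sum.elim (fun a => F.M.pre.D (Sum.inl a) f)
    (fun j z => s * F.M.pre.D (Sum.inr j) f z) c

/-- the initial drift -/
def b0 : ι ⊕ κ → Z → ℝ := Sum.elim F.b 0

theorem scale_pre {s : ℝ} (hs : s ≠ 0) : (F.M.scale s hs).pre = F.S0 s := by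
  unfold Imm.pre S0
  congr 1
  · funext c z
    cases c <;> rfl
  · funext c f z
    rw [F.M.scale_td hs (F.split z)]
    cases c with
    | inl a =>
      have : scl s (ee (Sum.inl a) : E (ι ⊕ κ)) = ee (Sum.inl a) := by
        ext c; cases c <;> simp [scl_apply]
      rw [this]; rfl
    | inr j =>
      have : scl s (ee (Sum.inr j) : E (ι ⊕ κ)) = s • ee (Sum.inr j) := by
        ext c; cases c <;> simp [scl_apply]
      rw [this, map_smul]; rfl

theorem S0_gam (s : ℝ) (f h : Z → ℝ) (p : Z) : (F.S0 s).gam f h p = F.G0 s f h p := by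
  simp only [Pre.gam, Fintype.sum_sum_type, G0, S0, Sum.elim_inl, Sum.elim_inr, Pi.add_apply,
    Finset.sum_apply, Pi.mul_apply, Finset.mul_sum]
  congr 1
  exact Finset.sum_congr rfl fun j _ => by ring

theorem P_ll (s : ℝ) (a b : ι) (hq : q ∈ (F.φ w).source) :
    (F.S0 s).P (Sum.inl a) (Sum.inl b) (F.φ w q) = F.MT.pre.P a b q.2 :=
  (F.D_pull hq (f := fun z => F.M.x z (Sum.inl b)) (F.MT.sm_coord b)
    fun r hr => by rw [F.hx w r hr]; rfl).1 a

theorem P_rl (s : ℝ) (j : κ) (b : ι) : (F.S0 s).P (Sum.inr j) (Sum.inl b) = fun _ => 0 := by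
  funext z
  obtain ⟨w, q, hq, rfl⟩ := F.exists_q z
  have := (F.D_pull hq (f := fun z => F.M.x z (Sum.inl b)) (F.MT.sm_coord b)
    fun r hr => by rw [F.hx w r hr]; rfl).2 j
  change s * F.M.pre.D (Sum.inr j) (fun z => F.M.x z (Sum.inl b)) _ = 0
  rw [this, mul_zero]

theorem D_y (s : ℝ) (j : κ) (hq : q ∈ (F.φ w).source) :
    (∀ a, F.M.pre.D (Sum.inl a) (fun z => s⁻¹ * F.M.x z (Sum.inr j)) (F.φ w q) = 0) ∧
    ∀ i, F.M.pre.D (Sum.inr i) (fun z => s⁻¹ * F.M.x z (Sum.inr j)) (F.φ w q) =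
      s⁻¹ * (Pi.single i (1 : ℝ) : κ → ℝ) j := by
  obtain ⟨h1, h2⟩ := F.D_param hq (f := fun z => s⁻¹ * F.M.x z (Sum.inr j))
    (r := fun ξ => s⁻¹ * ξ j) (contDiff_const.mul (contDiff_apply ℝ ℝ j))
    fun r hr => by rw [F.hx w r hr]; rfl
  refine ⟨h1, fun i => ?_⟩
  rw [h2, ((hasFDerivAt_apply j q.1).const_mul s⁻¹).fderiv]
  rfl

theorem P_lr (s : ℝ) (a : ι) (j : κ) : (F.S0 s).P (Sum.inl a) (Sum.inr j) = fun _ => 0 := by
  funext z
  obtain ⟨w, q, hq, rfl⟩ := F.exists_q z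
  exact (F.D_y s j hq).1 a

theorem P_rr (s : ℝ) (i j : κ) : (F.S0 s).P (Sum.inr i) (Sum.inr j) =
    fun _ => s * (s⁻¹ * (Pi.single i (1 : ℝ) : κ → ℝ) j) := by
  funext z
  obtain ⟨w, q, hq, rfl⟩ := F.exists_q z
  exact congrArg (s * ·) ((F.D_y s j hq).2 i)

theorem S0_D_const (s r : ℝ) (c : ι ⊕ κ) (z : Z) : (F.S0 s).D c (fun _ => r) z = 0 := by
  cases c <;> simp [S0, Imm.D_const]

theorem S0_D_pull (s : ℝ) (hq : q ∈ (F.φ w).source) {f : Z → ℝ} {h : T → ℝ} (hh : F.MT.Sm h)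
    (e : ∀ r ∈ (F.φ w).source, f (F.φ w r) = h r.2) :
    (∀ a, (F.S0 s).D (Sum.inl a) f (F.φ w q) = F.MT.pre.D a h q.2) ∧
    ∀ j, (F.S0 s).D (Sum.inr j) f (F.φ w q) = 0 :=
  ⟨(F.D_pull hq hh e).1, fun j => by
    change s * _ = 0
    rw [(F.D_pull hq hh e).2, mul_zero]⟩

theorem tan_b0 (s : ℝ) : (F.S0 s).Tan F.b0 := by
  intro c
  funext z
  obtain ⟨w, q, hq, rfl⟩ := F.exists_q z
  cases c with
  | inl a =>
    have := congrFun (F.bT_tan a) q.2
    simp only [Finset.sum_apply, Pi.mul_apply] at this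
    simp [Fintype.sum_sum_type, b0, F.P_ll s _ _ hq, F.b_φ w q hq, this]
  | inr j => simp [Fintype.sum_sum_type, b0, P_rl]

theorem Eb_S0 {s : ℝ} (hs : s ≠ 0) (hq : q ∈ (F.φ w).source) :
    (F.S0 s).Eb F.b0 (F.φ w q) = F.MT.pre.Eb F.bT q.2 := by
  have h1 := (F.M.scale s hs).scal_DP (F.φ w q)
  rw [F.scale_pre hs] at h1
  have h2 := F.MT.scal_DP q.2
  have hP := fun a b => F.S0_D_pull s hq (F.MT.sm_P a b) fun r hr => F.P_ll s a b hr
  have hb := fun a => F.S0_D_pull s hq (F.bT_sm a) fun r hr => F.b_φ w r hr a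
  simp only [Fintype.sum_sum_type, P_lr, P_rl, P_rr, S0_D_const, (hP _ _).1, (hP _ _).2,
    Finset.sum_const_zero, add_zero, mul_zero] at h1
  have h3 : (F.S0 s).scal (F.φ w q) = F.MT.pre.scal q.2 := by linarith
  have h4 : ∀ j, (F.S0 s).D (Sum.inr j) (0 : Z → ℝ) (F.φ w q) = 0 :=
    fun j => F.S0_D_const s 0 _ _
  simp [Pre.Eb, Pre.dv, Fintype.sum_sum_type, b0, h3, (hb _).1, h4, F.b_φ w q hq]

end Fib

end Crest.Agent.N222.A

end
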