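import Crest.Agent.N222.A.Stage0

-- ▼ part N222/A/Stage1
section

/-! # Row 222, part A: the deviation `Y` and the slowness of the stage coefficient (helper11) -/

set_option autoImplicit false
set_option linter.dupNamespace false
open Filter Set

noncomputable section

namespace Crest.Agent.N222.A.Stg

variable {Z : Type} {A : Alg Z} {G : Type} [Fintype G]

/-- the smoothed deviation of the added masses from the sources -/
def Yf (dl : ℝ) (c : G → ℝ) (σ Δ : G → Z → ℝ) (x : Z) : ℝ :=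
  ∑ g, (√((Δ g x - c g * σ g x) ^ 2 + dl ^ 2) - dl)

variable {dl : ℝ} {c : G → ℝ} {σ Δ : G → Z → ℝ}

theorem sm_term (hdl : 0 < dl) {e : Z → ℝ} (he : A.Sm e) :
    A.Sm fun x => √(e x ^ 2 + dl ^ 2) - dl :=
  Alg.sub_const (Alg.sqrt (Alg.add_const (Alg.pow he 2) _) fun _ => by positivity) dl

theorem sm_Yf (hdl : 0 < dl) (sσ : ∀ g, A.Sm (σ g)) (sΔ : ∀ g, A.Sm (Δ g)) :
    A.Sm (Yf dl c σ Δ) :=
  Alg.sum _ fun g _ => sm_term hdl (Alg.sub (sΔ g) (Alg.smul (c g) (sσ g)))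

theorem sum_abs_le (dl : ℝ) (c : G → ℝ) (σ Δ : G → Z → ℝ) (x : Z) :
    ∑ g, |Δ g x - c g * σ g x| ≤ Yf dl c σ Δ x + Fintype.card G * dl := by
  have : ∑ g, |Δ g x - c g * σ g x| ≤
      ∑ g, ((√((Δ g x - c g * σ g x) ^ 2 + dl ^ 2) - dl) + dl) :=
    Finset.sum_le_sum fun g _ => by
      have : |Δ g x - c g * σ g x| ≤ √((Δ g x - c g * σ g x) ^ 2 + dl ^ 2) :=
        Real.abs_le_sqrt (by nlinarith)
      linarith
  rw [Finset.sum_add_distrib] at this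
  simpa [Yf] using this

theorem hasDerivAt_term (hdl : 0 < dl) (e : ℝ) :
    HasDerivAt (fun t => √(t ^ 2 + dl ^ 2) - dl) (e / √(e ^ 2 + dl ^ 2)) e := by
  have h1 : HasDerivAt (fun t : ℝ => t ^ 2 + dl ^ 2) (2 * e) e := by
    simpa using (hasDerivAt_pow 2 e).add_const (dl ^ 2)
  have h2 := (h1.sqrt (by positivity)).sub_const dl
  rwa [mul_div_mul_left _ _ two_ne_zero] at h2

theorem gam_Yf (T : Pt A) (hdl : 0 < dl) (sσ : ∀ g, A.Sm (σ g)) (sΔ : ∀ g, A.Sm (Δ g))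
    (nσ : ∀ g, 0 ≤ σ g T.p) (nΔ : ∀ g, 0 ≤ Δ g T.p) {I I' B : ℝ} (fΔ : T.Fi Δ I)
    (fσ : T.Fi σ I') (hc : ∀ g, |c g| ≤ B) :
    T.Γ (Yf dl c σ Δ) (Yf dl c σ Δ) ≤
      2 * ((∑ g, Δ g T.p) * I) + 2 * (B ^ 2 * (∑ g, σ g T.p) * I') := by
  set k : G → ℝ := fun g => (Δ g T.p - c g * σ g T.p) / √((Δ g T.p - c g * σ g T.p) ^ 2 + dl ^ 2)
    with hk
  have k1 : ∀ g, |k g| ≤ 1 := fun g => by
    have h3 : 0 < √((Δ g T.p - c g * σ g T.p) ^ 2 + dl ^ 2) := Real.sqrt_pos.2 (by positivity)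
    rw [hk, abs_div, abs_of_pos h3, div_le_one h3]
    exact Real.abs_le_sqrt (by nlinarith)
  have sa : A.Sm fun x => ∑ g, k g * Δ g x := Alg.sum _ fun g _ => Alg.smul _ (sΔ g)
  have sb : A.Sm fun x => ∑ g, -(k g * c g) * σ g x := Alg.sum _ fun g _ => Alg.smul _ (sσ g)
  have sY : A.Sm (Yf dl c σ Δ) := sm_Yf hdl sσ sΔ
  have ea : ∀ f, A.Sm f → T.Γ (fun x => ∑ g, k g * Δ g x) f = ∑ g, k g * T.Γ (Δ g) f :=
    fun f hf => by
      rw [T.sum_left _ (fun g _ => Alg.smul _ (sΔ g)) hf]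
      exact Finset.sum_congr rfl fun g _ => T.smul_left _ (sΔ g) hf
  have eb : ∀ f, A.Sm f →
      T.Γ (fun x => ∑ g, -(k g * c g) * σ g x) f = ∑ g, -(k g * c g) * T.Γ (σ g) f :=
    fun f hf => by
      rw [T.sum_left _ (fun g _ => Alg.smul _ (sσ g)) hf]
      exact Finset.sum_congr rfl fun g _ => T.smul_left _ (sσ g) hf
  have eY : ∀ f, A.Sm f → T.Γ (Yf dl c σ Δ) f =
      T.Γ (fun x => (∑ g, k g * Δ g x) + ∑ g, -(k g * c g) * σ g x) f := fun f hf => by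
    have se : ∀ g, A.Sm fun x => Δ g x - c g * σ g x := fun g =>
      Alg.sub (sΔ g) (Alg.smul (c g) (sσ g))
    rw [T.add sa sb hf, ea f hf, eb f hf, ← Finset.sum_add_distrib]
    refine (T.sum_left _ (fun g _ => sm_term hdl (se g)) hf).trans
      (Finset.sum_congr rfl fun g _ => ?_)
    rw [T.chain (φ := fun t => √(t ^ 2 + dl ^ 2) - dl) (se g) (sm_term hdl (se g)) hf
      (hasDerivAt_term hdl _), T.sub_left (sΔ g) (Alg.smul (c g) (sσ g)) hf,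
      T.smul_left _ (sσ g) hf]
    simp only [hk]; ring
  have h1 := fΔ.lin sΔ nΔ sa k1 (ea _ sa)
  have h2 := fσ.lin sσ nσ sb (c := fun g => -(k g * c g)) (B := B) (fun g => by
    rw [abs_neg, abs_mul]
    exact (mul_le_mul (k1 g) (hc g) (abs_nonneg _) zero_le_one).trans_eq (one_mul _)) (eb _ sb)
  rw [eY _ sY, T.symm (A.add sa sb) sY, eY _ (A.add sa sb)]
  have h3 := T.add_self_le sa sb
  linarith

/-- the coefficient of the stage is slow -/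
theorem slowQ (T : Pt A) {Y : Z → ℝ} (sY : A.Sm Y) {r z Ys ι s : ℝ} (hz : 0 < z) (hzr : z ≤ r)
    (hYs : 0 < Ys) (hι : 0 < ι) (hs : 0 < s) (hL : cc * r / Ys = 1 / (51 * ι * s ^ 3))
    (hΓ : Y T.p < Ys → T.Γ Y Y ≤ 4 * ι * s ^ 4) :
    T.Γ (fun x => (Hf r z Ys (Y x) ^ 2)⁻¹ / (2 * ι * s ^ 2))
        (fun x => (Hf r z Ys (Y x) ^ 2)⁻¹ / (2 * ι * s ^ 2)) ≤
      ((Hf r z Ys (Y T.p) ^ 2)⁻¹ / (2 * ι * s ^ 2)) ^ 3 / 64 := by
  have hp : ∀ t, 0 < Hf r z Ys t := fun t => hz.trans_le (le_Hf hzr t)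
  have sQ : A.Sm fun x => (Hf r z Ys (Y x) ^ 2)⁻¹ / (2 * ι * s ^ 2) :=
    Alg.div_const (Alg.inv (Alg.pow (sm_Hf sY) 2) fun x => pow_pos (hp _) 2) _
  have hd := (((hasDerivAt_Hf (r := r) (z := z) (Ys := Ys) (Y T.p)).pow 2).inv
    (pow_pos (hp (Y T.p)) 2).ne').div_const (2 * ι * s ^ 2)
  rw [T.chain_self (φ := fun t => (Hf r z Ys t ^ 2)⁻¹ / (2 * ι * s ^ 2)) sY sQ hd]
  have h0 := hp (Y T.p)
  simp only [Pi.pow_apply]
  rcases lt_or_ge (Y T.p) Ys with h | h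
  · have h1 := hΓ h
    have h2 : |(r - z) * -(deriv cut (Y T.p / Ys) * (1 / Ys))| ≤ 1 / (51 * ι * s ^ 3) := by
      rw [← hL, abs_mul, abs_neg, abs_mul, abs_of_nonneg (sub_nonneg.2 hzr),
        abs_of_pos (one_div_pos.2 hYs)]
      have := mul_le_mul (show r - z ≤ r by linarith)
        (mul_le_mul_of_nonneg_right (abs_deriv_cut_le (Y T.p / Ys)) (one_div_pos.2 hYs).le)
        (by positivity) (by linarith)
      exact this.trans_eq (by ring)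
    generalize (r - z) * -(deriv cut (Y T.p / Ys) * (1 / Ys)) = D at *
    generalize Hf r z Ys (Y T.p) = h at *
    have h3 : D ^ 2 ≤ (1 / (51 * ι * s ^ 3)) ^ 2 := sq_le_sq' (abs_le.1 h2).1 (abs_le.1 h2).2
    have h4 := mul_le_mul h3 h1 (T.nonneg sY) (sq_nonneg _)
    have h5 := mul_le_mul_of_nonneg_left h4
      (show 0 ≤ 1 / (h ^ 6 * ι ^ 2 * s ^ 4) by positivity)
    refine le_of_eq_of_le ?_ (h5.trans ?_)
    · norm_num; field_simp
    · have e1 : 1 / (h ^ 6 * ι ^ 2 * s ^ 4) * ((1 / (51 * ι * s ^ 3)) ^ 2 * (4 * ι * s ^ 4))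
          = 4 / 2601 * (1 / (h ^ 6 * ι ^ 3 * s ^ 6)) := by field_simp; norm_num
      have e2 : ((h ^ 2)⁻¹ / (2 * ι * s ^ 2)) ^ 3 / 64
          = 1 / 512 * (1 / (h ^ 6 * ι ^ 3 * s ^ 6)) := by field_simp; norm_num
      rw [e1, e2]
      exact mul_le_mul_of_nonneg_right (by norm_num) (by positivity)
  · rw [cut_deriv_zero (Or.inr ((one_le_div hYs).2 h))]
    simp only [zero_mul, neg_zero, mul_zero, zero_div, ne_eq, OfNat.ofNat_ne_zero,
      not_false_eq_true, zero_pow]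
    positivity

theorem le_slow {U W Q σ r j : ℝ} (hU : 0 < U) (hW : 1 ≤ W) (hQ : 0 ≤ Q) (hσ : 0 ≤ σ) :
    7 / 8 * Q ^ 2 * r ^ 2 / (U ^ 2 / 4) - Q * j ≤ slow U W Q σ r j 0 0 := by
  have h0 : 0 < W := by linarith
  have h1 : 0 ≤ 1 - 1 / W ^ 2 := sub_nonneg.2 ((div_le_one (by positivity)).2 (by nlinarith))
  have h2 : 0 ≤ 1 - 1 / W := sub_nonneg.2 ((div_le_one h0).2 hW)
  have a1 : 0 ≤ (1 - 1 / W ^ 2) * (1 - 1 / W) ^ 2 * (2 * W + 1) / U ^ 2 := by positivity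
  have a2 : 0 ≤ 3 / 8 * Q * (1 - 1 / W ^ 2) := by positivity
  have a3 : 0 ≤ Q * σ * (1 - 1 / W) / (U ^ 2 / 4) := by positivity
  simp only [slow, mul_zero, zero_mul, zero_div, abs_zero, ne_eq, OfNat.ofNat_ne_zero,
    not_false_eq_true, zero_pow]
  linarith

end Crest.Agent.N222.A.Stg

end
end

-- ▼ part N222/A/Stage2
section

/-! # Row 222, part A: one step of a stage (helper11) -/

set_option autoImplicit false
set_option linter.dupNamespace false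
open Filter Set

noncomputable section

namespace Crest.Agent.N222.A.Stg

/-- the clock of a stage -/
def tau {G : Type} [Fintype G] (ι s : ℝ) (c j σ : G → ℝ) : ℝ :=
  ∑ g, c g * ((j g / ι + σ g) / (2 * s ^ 2))

theorem tau_nonneg {G : Type} [Fintype G] {ι s : ℝ} {c j σ : G → ℝ} (hι : 0 < ι)
    (hc : ∀ g, 0 ≤ c g) (hj : ∀ g, 0 ≤ j g) (hσ : ∀ g, 0 ≤ σ g) : 0 ≤ tau ι s c j σ :=
  Finset.sum_nonneg fun g _ => by have := hc g; have := hj g; have := hσ g; positivity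

theorem tau_const {G : Type} [Fintype G] {ι s : ℝ} (j σ : G → ℝ) (hs : 0 < s) :
    tau ι s (fun _ => s ^ 2) j σ = ((∑ g, j g) / ι + ∑ g, σ g) / 2 := by
  rw [tau, Finset.sum_div, ← Finset.sum_add_distrib, Finset.sum_div]
  exact Finset.sum_congr rfl fun g _ => by field_simp

theorem tau_le {G : Type} [Fintype G] {ι s : ℝ} {c j σ : G → ℝ} (hι : 0 < ι) (hs : 0 < s)
    (hc : ∀ g, c g ≤ s ^ 2) (hj : ∀ g, 0 ≤ j g) (hσ : ∀ g, 0 ≤ σ g) (sj : ∑ g, j g ≤ ι)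
    (sσ : ∑ g, σ g ≤ 1) : tau ι s c j σ ≤ 1 := by
  have h1 : tau ι s c j σ ≤ tau ι s (fun _ => s ^ 2) j σ :=
    Finset.sum_le_sum fun g _ => mul_le_mul_of_nonneg_right (hc g)
      (by have := hj g; have := hσ g; positivity)
  have h2 := (div_le_one hι).2 sj
  rw [tau_const j σ hs] at h1
  linarith

theorem v_num {v u a : ℝ} (hv : 0 ≤ v) (hu : 0 < u) (ha : 0 < a)
    (h : (u + v) ^ 2 ≤ u ^ 2 + 4 * a) : v ^ 2 / 4 ≤ a ∧ u ^ 2 / 4 + v ^ 2 / 4 ≤ (u + v) ^ 2 / 4 ∧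
      (u + v) ^ 2 / 4 ≤ u ^ 2 / 4 + v ^ 2 / 4 + u * (1 + a) / 2 := by
  have h0 := mul_nonneg hu.le hv
  have h1 : v ^ 2 / 4 ≤ a := by nlinarith
  have h2 : v ≤ 1 + a := le_of_sq_le_sq (by nlinarith [sq_nonneg (1 - a)]) (by linarith)
  exact ⟨h1, by nlinarith, by nlinarith⟩

/-- the constants of a stage -/
structure Cst (n' : ℝ) (k : ℕ) where
  r : ℝ
  z : ℝ
  Ys : ℝ
  dl : ℝ
  ι : ℝ
  s : ℝ
  ab : ℝ
  u0 : ℝ
  ε : ℝ
  R : ℕ
  hz : 0 < z
  hzr : z ≤ r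
  hYs : 0 < Ys
  hdl : 0 < dl
  hι : 0 < ι
  hs : 0 < s
  hab : 0 < ab
  hu : 0 < u0
  hε : 0 < ε
  hL : cc * r / Ys = 1 / (51 * ι * s ^ 3)
  hr : r * (102 * ι * s) ≤ 1
  hk : Ys + k * dl ≤ s ^ 2
  hR : R * ab = s ^ 2
  hz2 : ab / (51 * ι * s ^ 3) ≤ z / 2
  hn : 2 * n' ≤ ι * s ^ 2
  tiny : 16 * (u0 * (1 + ab) / 2 / (51 * ι * s ^ 3) * (z⁻¹) ^ 3)
    + (z⁻¹) ^ 2 * (u0 ^ 2 / 4) / (2 * s ^ 2) ≤ ε / 2

variable {n' s0 K0 : ℝ} (W : World n' s0 K0) (C : Cst n' (Fintype.card W.G)) (st : W.St)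
  (M σ : W.G → W.Z → ℝ) (j : W.Pi → W.G → ℝ)

/-- the invariant of a stage -/
def SInv (t : W.G → ℕ) (a : W.St × (W.G → W.Z → ℝ)) : Prop :=
  (∀ g, t g ≤ C.R) ∧ W.Ok a.1 (fun g x => M g x + a.2 g x) ∧ W.Mass a.1 a.2 ∧ W.Le st a.1 ∧
  ∀ᶠ π in W.L, W.E st π - 2 * (C.r ^ 2)⁻¹ - C.ε * ∑ g, (t g : ℝ) ≤ W.E a.1 π -
    (Hf C.r C.z C.Ys (Yf C.dl (fun g => t g * C.ab) σ a.2 (W.ev π)) ^ 2)⁻¹ *
      (2 - tau C.ι C.s (fun g => t g * C.ab) (j π) fun g => σ g (W.ev π))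

theorem Yf_upd {Z G : Type} [Fintype G] [DecidableEq G] (dl ab : ℝ) (t : G → ℕ)
    (σ Δ : G → Z → ℝ) (g : G) (v : Z → ℝ) (x : Z) :
    |Yf dl (fun g' => (Function.update t g (t g + 1) g' : ℕ) * ab) σ (upd Δ g v) x
      - Yf dl (fun g' => t g' * ab) σ Δ x| ≤ |v x ^ 2 / 4 - ab * σ g x| := by
  unfold Yf
  rw [sum_off (fun g' => √((Δ g' x - t g' * ab * σ g' x) ^ 2 + dl ^ 2) - dl) _ g
    (fun g' hg' => by simp [upd, hg']), add_sub_cancel_left,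
    sub_sub_sub_cancel_right]
  refine (abs_sqrt_sub_le _ _ _).trans_eq ?_
  congr 1
  simp [upd]; ring

theorem tau_upd {G : Type} [Fintype G] [DecidableEq G] (ι s ab : ℝ) (t : G → ℕ) (j σ : G → ℝ)
    (g : G) : tau ι s (fun g' => (Function.update t g (t g + 1) g' : ℕ) * ab) j σ
      = tau ι s (fun g' => t g' * ab) j σ + (ab * j g / ι + ab * σ g) / (2 * s ^ 2) := by
  unfold tau
  rw [sum_off (fun g' => t g' * ab * ((j g' / ι + σ g') / (2 * s ^ 2))) _ g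
    (fun g' hg' => by simp [Function.update_of_ne hg'])]
  simp; ring

theorem sinv_step (hS : SlowStmt) (hn : 1 ≤ n')
    (hσ : ∀ g, W.A.Sm (σ g) ∧ W.Su g (σ g) ∧ ∀ x, 0 ≤ σ g x ∧ σ g x ≤ 1)
    (hj : ∀ᶠ π in W.L, ∑ g, σ g (W.ev π) ≤ 1 ∧ ∑ g, j π g ≤ C.ι ∧
      ∀ g, 0 ≤ j π g ∧ (W.pt st π).Γ (σ g) (σ g) ≤ j π g * σ g (W.ev π))
    (t : W.G → ℕ) (a : W.St × (W.G → W.Z → ℝ)) (g : W.G) (hg : t g < C.R)
    (h : SInv W C st M σ j t a) :
    ∃ a', SInv W C st M σ j (Function.update t g (t g + 1)) a' := by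
  obtain ⟨st1, Δ⟩ := a
  obtain ⟨ht, ok, ms, le, inv⟩ := h
  dsimp only at ok ms le inv
  have hι := C.hι
  have hs := C.hs
  have hab := C.hab
  have hp : ∀ t, 0 < Hf C.r C.z C.Ys t := fun t => C.hz.trans_le (le_Hf C.hzr t)
  have sY : W.A.Sm (Yf C.dl (fun g => t g * C.ab) σ Δ) := sm_Yf C.hdl (fun g => (hσ g).1) ms.sm
  have sσ : W.A.Sm fun x => C.ab * σ g x := Alg.smul _ (hσ g).1
  obtain ⟨v, st2, sv, suv, hv, hvs, le2, -, -, hE⟩ := World.step hS st1 g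
    (Q := fun x => (Hf C.r C.z C.Ys (Yf C.dl (fun g => t g * C.ab) σ Δ x) ^ 2)⁻¹
      / (2 * C.ι * C.s ^ 2)) (σ := fun x => C.ab * σ g x) (a := fun _ => 0) (abar := C.ab)
    (Alg.div_const (Alg.inv (Alg.pow (sm_Hf sY) 2) fun x => pow_pos (hp _) 2) _) sσ (W.A.const 0)
    (fun x => by have := hp (Yf C.dl (fun g => t g * C.ab) σ Δ x); positivity)
    (fun x => ⟨mul_nonneg hab.le ((hσ g).2.2 x).1, mul_le_of_le_one_right hab.le ((hσ g).2.2 x).2⟩)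
    (World.su_mono (hσ g).2.1 fun x hx => by simp [hx]) C.hu (half_pos C.hε)
  have ht' : ∀ g', Function.update t g (t g + 1) g' ≤ C.R := fun g' => by
    by_cases e : g' = g
    · subst e; rw [Function.update_self]; omega
    · rw [Function.update_of_ne e]; exact ht g'
  have hc : ∀ (t : W.G → ℕ), (∀ g, t g ≤ C.R) → ∀ g, (t g : ℝ) * C.ab ≤ C.s ^ 2 := fun t ht g =>
    C.hR ▸ mul_le_mul_of_nonneg_right (Nat.cast_le.2 (ht g)) hab.le
  refine ⟨(st2, upd Δ g v), ht', ⟨?_, ok.le.trans le2⟩, ms.upd sv suv hvs, le.trans le2, ?_⟩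
  · have := ok.toMass.upd sv suv hvs
    have e : upd (fun g x => M g x + Δ g x) g v = fun g' x => M g' x + upd Δ g v g' x := by
      funext g' x; simp only [upd, add_assoc]
    rwa [e] at this
  filter_upwards [inv, hj, ms.fi, hE] with π inv hj fi hE
  have hY := Yf_upd C.dl C.ab t σ Δ g v (W.ev π)
  have σ0 : ∀ g, 0 ≤ σ g (W.ev π) := fun g => ((hσ g).2.2 _).1
  have τ1 := tau_le hι hs (hc _ ht') (fun g => (hj.2.2 g).1) σ0 hj.2.1 hj.1
  have τ0 := tau_nonneg (s := C.s) hι (c := fun g => t g * C.ab) (fun g => by positivity)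
    (fun g => (hj.2.2 g).1) σ0
  have es : ∑ g', ((Function.update t g (t g + 1) g' : ℕ) : ℝ) = ∑ g', (t g' : ℝ) + 1 := by
    rw [sum_off (fun g' => (t g' : ℝ)) _ g (fun g' hg' => by simp [Function.update_of_ne hg'])]
    simp
  rw [tau_upd] at τ1 ⊢
  rw [es]
  have j0 : 0 ≤ C.ab * j π g := mul_nonneg hab.le (hj.2.2 g).1
  have s0 : 0 ≤ C.ab * σ g (W.ev π) := mul_nonneg hab.le (σ0 g)
  have hε := C.hε
  by_cases hO : W.ev π ∈ W.O g
  · have hΓ : Yf C.dl (fun g => t g * C.ab) σ Δ (W.pt st1 π).p < C.Ys →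
        (W.pt st1 π).Γ (Yf C.dl (fun g => t g * C.ab) σ Δ) (Yf C.dl (fun g => t g * C.ab) σ Δ)
          ≤ 4 * C.ι * C.s ^ 4 := fun hlt => by
      have fσ : (W.pt st1 π).Fi σ C.ι := ⟨j π, fun g => ⟨(hj.2.2 g).1, by
        rw [W.pt_p]; exact (le π _ (hσ g).1).trans (hj.2.2 g).2⟩, hj.2.1⟩
      have h1 := gam_Yf (W.pt st1 π) (c := fun g => t g * C.ab) (B := C.s ^ 2) C.hdl
        (fun g => (hσ g).1) ms.sm (fun g => ((hσ g).2.2 _).1) (fun g => ms.nn g _) fi fσ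
        (fun g => by rw [abs_of_nonneg (by positivity)]; exact hc t ht g)
      rw [W.pt_p] at h1 hlt
      have h2 := sum_abs_le C.dl (fun g => t g * C.ab) σ Δ (W.ev π)
      have h3 : ∑ g, Δ g (W.ev π) ≤
          ∑ g, (|Δ g (W.ev π) - t g * C.ab * σ g (W.ev π)| + C.s ^ 2 * σ g (W.ev π)) :=
        Finset.sum_le_sum fun g _ => by
          have := le_abs_self (Δ g (W.ev π) - t g * C.ab * σ g (W.ev π))
          have := mul_le_mul_of_nonneg_right (hc t ht g) (σ0 g)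
          linarith
      rw [Finset.sum_add_distrib, ← Finset.mul_sum] at h3
      have h4 := mul_le_mul_of_nonneg_left hj.1 (sq_nonneg C.s)
      have h5 : ∑ g, Δ g (W.ev π) ≤ 2 * C.s ^ 2 := by linarith [C.hk]
      have h6 := mul_le_mul h5 C.hn (by linarith) (by positivity)
      have h7 := mul_le_mul_of_nonneg_left hj.1
        (show 0 ≤ (C.s ^ 2) ^ 2 * C.ι by positivity)
      linarith
    have h1 := slowQ (W.pt st1 π) sY C.hz C.hzr C.hYs hι hs C.hL hΓ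
    rw [W.pt_p] at h1
    have h2 := hE.2 hO (C.ab * j π g) j0 h1 (by
      rw [(W.pt st1 π).smul_left _ (hσ g).1 sσ, (W.pt st1 π).smul_right _ (hσ g).1 (hσ g).1]
      have := mul_le_mul_of_nonneg_left ((le π _ (hσ g).1).trans (hj.2.2 g).2)
        (mul_self_nonneg C.ab)
      linarith)
    rw [(W.pt st1 π).const_right 0 sv] at h2
    obtain ⟨v0, v1⟩ := hv (W.ev π)
    have hu := C.hu
    have h3 := le_slow (U := C.u0 + v (W.ev π)) (W := √(1 + (W.pt st1 π).Γ v v))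
      (r := (C.u0 + v (W.ev π)) ^ 2 / 4 - C.u0 ^ 2 / 4 - C.ab * σ g (W.ev π)) (j := C.ab * j π g)
      (by linarith) (Real.one_le_sqrt.2 (by linarith [(W.pt st1 π).nonneg sv]))
      (show 0 ≤ (Hf C.r C.z C.Ys (Yf C.dl (fun g => t g * C.ab) σ Δ (W.ev π)) ^ 2)⁻¹
        / (2 * C.ι * C.s ^ 2) by positivity) s0
    have h4 := Hf_lip C.hz.le C.hzr C.hYs (Yf C.dl (fun g => t g * C.ab) σ Δ (W.ev π))
      (Yf C.dl (fun g' => (Function.update t g (t g + 1) g' : ℕ) * C.ab) σ (upd Δ g v) (W.ev π))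
    rw [C.hL] at h4
    have h5 := h4.trans (mul_le_mul_of_nonneg_left hY (by positivity))
    rw [one_div_mul_eq_div] at h5
    obtain ⟨v2, v3, v4⟩ := v_num v0 hu hab v1
    have s1 := mul_le_of_le_one_right hab.le ((hσ g).2.2 (W.ev π)).2
    have h6 : |v (W.ev π) ^ 2 / 4 - C.ab * σ g (W.ev π)| / (51 * C.ι * C.s ^ 3) ≤ C.z / 2 :=
      (div_le_div_of_nonneg_right
        (abs_le.2 ⟨by linarith [sq_nonneg (v (W.ev π))], by linarith⟩) (by positivity)).trans C.hz2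
    have h7 := le_Hf (Ys := C.Ys) C.hzr (Yf C.dl (fun g => t g * C.ab) σ Δ (W.ev π))
    have h8 := step_num (p := (C.u0 + v (W.ev π)) ^ 2 / 4) (p0 := C.u0 ^ 2 / 4)
      (w := C.u0 * (1 + C.ab) / 2) hι hs C.hz h7
      ((mul_le_mul_of_nonneg_right (Hf_le C.hzr _) (by positivity)).trans C.hr) (by linarith) h5
      (by positivity) s0 (by positivity) v3 v4 τ0 j0 (by linarith)
    linarith [C.tiny]
  · have v0 := (W.su_out suv sv st1 π hO).1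
    have σ1 := (W.su_out (hσ g).2.1 (hσ g).1 st1 π hO).1
    rw [v0, σ1] at hY
    have e := sub_eq_zero.1 (abs_nonpos_iff.1 (hY.trans_eq (by simp)))
    rw [e, hE.1 hO]
    have h1 : 0 ≤ (Hf C.r C.z C.Ys (Yf C.dl (fun g => t g * C.ab) σ Δ (W.ev π)) ^ 2)⁻¹ *
      ((C.ab * j π g / C.ι + C.ab * σ g (W.ev π)) / (2 * C.s ^ 2)) := by positivity
    linarith

end Crest.Agent.N222.A.Stg

end
end

-- ▼ part N222/A/Stage

/-! # Row 222, part A: the stage lemma (helper11) -/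

set_option autoImplicit false
set_option linter.dupNamespace false
open Filter Set

noncomputable section

namespace Crest.Agent.N222.A

namespace Stg

theorem exists_u0 {a b ε : ℝ} (ha : 0 < a) (hb : 0 < b) (hε : 0 < ε) :
    ∃ u : ℝ, 0 < u ∧ u * a + u ^ 2 * b ≤ ε := by
  refine ⟨min 1 (ε / (a + b)), by positivity, ?_⟩
  have h0 : 0 < min 1 (ε / (a + b)) := by positivity
  have h1 := min_le_left 1 (ε / (a + b))
  have h2 := (le_div_iff₀ (by positivity)).1 (min_le_right 1 (ε / (a + b)))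
  generalize min 1 (ε / (a + b)) = u at *
  nlinarith [mul_le_mul_of_nonneg_right h1 (mul_pos h0 hb).le]

theorem exists_cst (n' : ℝ) (k : ℕ) {ι T y Φ δ : ℝ} (hι : 0 < ι) (hT : 0 < T) (hy : 0 < y)
    (hy2 : y ≤ 1 / 2) (hn : 2 * n' ≤ ι * T) (hΦ : eta ι T y ≤ Φ) (hδ : 0 < δ) :
    ∃ C : Cst n' k, C.ι = ι ∧ C.s ^ 2 = T ∧ (C.r ^ 2)⁻¹ = eta ι T y ∧ (C.z ^ 2)⁻¹ = Φ ∧
      C.Ys + k * C.dl ≤ 2 * y * T ∧ C.ε * (k * C.R) ≤ δ := by
  obtain ⟨s, hs, rfl⟩ : ∃ s : ℝ, 0 < s ∧ s ^ 2 = T := ⟨√T, Real.sqrt_pos.2 hT, Real.sq_sqrt hT.le⟩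
  have c1 := one_le_cc
  have c0 : 0 < cc := by linarith
  have hη : ((y / (51 * cc * ι * s)) ^ 2)⁻¹ = eta ι (s ^ 2) y := by unfold eta; field_simp
  have η0 : 0 < eta ι (s ^ 2) y := by unfold eta; positivity
  have Φ0 : 0 < Φ := η0.trans_le hΦ
  obtain ⟨z, hz, hzΦ⟩ : ∃ z : ℝ, 0 < z ∧ (z ^ 2)⁻¹ = Φ :=
    ⟨(√Φ)⁻¹, inv_pos.2 (Real.sqrt_pos.2 Φ0), by rw [inv_pow, inv_inv, Real.sq_sqrt Φ0.le]⟩
  have hzr : z ≤ y / (51 * cc * ι * s) := by
    rw [← hη, ← hzΦ, inv_le_inv₀ (by positivity) (by positivity)] at hΦ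
    exact le_of_sq_le_sq hΦ (by positivity)
  obtain ⟨R, hR⟩ := exists_nat_gt (2 * s ^ 2 / (51 * ι * s ^ 3 * z))
  have R0 : (0 : ℝ) < R := lt_trans (by positivity) hR
  have hk : (k : ℝ) * (y * s ^ 2 / (k + 1)) ≤ y * s ^ 2 := by
    rw [← mul_div_assoc, div_le_iff₀ (by positivity)]
    nlinarith [mul_pos hy (pow_pos hs 2)]
  have ε0 : 0 < δ / (k * R + 1) := by positivity
  obtain ⟨u, hu, hu2⟩ := exists_u0
    (a := 16 * ((1 + s ^ 2 / R) / 2 / (51 * ι * s ^ 3) * (z⁻¹) ^ 3))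
    (b := (z⁻¹) ^ 2 * (1 / 4) / (2 * s ^ 2)) (by positivity) (by positivity) (half_pos ε0)
  refine ⟨⟨y / (51 * cc * ι * s), z, y * s ^ 2, y * s ^ 2 / (k + 1), ι, s, s ^ 2 / R, u,
    δ / (k * R + 1), R, hz, hzr, by positivity, by positivity, hι, hs, by positivity, hu, ε0,
    by field_simp, ?_, by nlinarith [pow_pos hs 2], by field_simp, ?_, hn,
    le_of_eq_of_le (by ring) hu2⟩, rfl, rfl, hη, hzΦ, by dsimp only; linarith, ?_⟩
  · have e : y / (51 * cc * ι * s) * (102 * ι * s) = 2 * y / cc := by field_simp; norm_num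
    rw [e, div_le_one c0]; linarith
  · rw [div_lt_iff₀ (by positivity)] at hR
    rw [div_div, div_le_div_iff₀ (by positivity) (by norm_num)]
    linarith
  · dsimp only
    rw [div_mul_eq_mul_div, div_le_iff₀ (by positivity)]
    linarith

end Stg

open Stg in
/-- **STAGE** -/
theorem stage (hS : SlowStmt) : StageStmt := by
  intro n' s0 K0 W st M ι T y Φ δ σ j hn ok hι hT hy hy2 hnι hΦ hδ hσ hj
  obtain ⟨C, e1, e2, e3, e4, e5, e6⟩ := exists_cst n' (Fintype.card W.G) hι hT hy hy2 hnι hΦ hδ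
  subst e1
  have h0 : SInv W C st M σ j (fun _ => 0) (st, fun _ _ => 0) := by
    refine ⟨fun _ => Nat.zero_le _, by simpa using ok, World.mass_zero st, World.Le.refl st,
      Eventually.of_forall fun π => ?_⟩
    simp [Yf, tau, Real.sqrt_sq C.hdl.le, Hf_zero, mul_comm]
  obtain ⟨⟨st', Δ⟩, -, ok', ms, -, inv⟩ := rounds C.R (SInv W C st M σ j)
    (sinv_step W C st M σ j hS hn hσ hj) h0
  refine ⟨st', _, ok', fun g x => le_add_of_nonneg_right (ms.nn g x), ?_⟩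
  filter_upwards [inv, hj] with π inv hj
  have σ0 : ∀ g, 0 ≤ σ g (W.ev π) := fun g => ((hσ g).2.2 _).1
  have τ1 := tau_le (c := fun _ => C.s ^ 2) C.hι C.hs (fun _ => le_rfl) (fun g => (hj.2.2 g).1)
    σ0 hj.2.1 hj.1
  simp only [C.hR, Finset.sum_const, Finset.card_univ, nsmul_eq_mul] at inv
  rw [tau_const _ _ C.hs] at inv τ1
  rw [e2, e3] at inv
  generalize ((∑ g, j π g) / C.ι + ∑ g, σ g (W.ev π)) / 2 = τ at *
  have h1 : eta C.ι T y ≤ (Hf C.r C.z C.Ys (Yf C.dl (fun _ => T) σ Δ (W.ev π)) ^ 2)⁻¹ := by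
    have h2 := C.hz.trans_le (le_Hf (Ys := C.Ys) C.hzr (Yf C.dl (fun _ => T) σ Δ (W.ev π)))
    rw [← e3]
    exact inv_anti₀ (by positivity) (pow_le_pow_left₀ h2.le (Hf_le C.hzr _) 2)
  have h2 := mul_le_mul_of_nonneg_right h1 (show 0 ≤ 2 - τ by linarith)
  refine ⟨by linarith, ?_⟩
  rcases lt_or_ge (Yf C.dl (fun _ => T) σ Δ (W.ev π)) C.Ys with h | h
  · left
    have := sum_abs_le C.dl (fun _ => T) σ Δ (W.ev π)
    simp only [add_sub_cancel_left]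
    linarith
  · right
    rw [Hf_top C.hYs h, e4] at inv
    have Φ0 : 0 ≤ Φ := by rw [← e4]; positivity
    have := mul_le_mul_of_nonneg_left (show 1 ≤ 2 - τ by linarith) Φ0
    linarith

end Crest.Agent.N222.A

end
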